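import Mathlib

/-!
Orthogonality of exponentials on a period.
-/

open Complex MeasureTheory Set ComplexConjugate

namespace Vale.Agent.P142.Area

noncomputable section

/-- The `n`-th exponential. -/
def mode (n : ℤ) (y : ℝ) : ℂ := exp ((n : ℂ) * (y * I))

theorem norm_mode (n : ℤ) (y : ℝ) : ‖mode n y‖ = 1 := by
  rw [mode, show (n : ℂ) * (y * I) = ((n * y : ℝ) : ℂ) * I by push_cast; ring, norm_exp_ofReal_mul_I]

theorem continuous_mode (n : ℤ) : Continuous (mode n) := by unfold mode; fun_prop

theorem conj_mode (n : ℤ) (y : ℝ) : conj (mode n y) = mode (-n) y := by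
  rw [mode, mode, ← exp_conj]; simp

theorem mode_add (n m : ℤ) (y : ℝ) : mode (n + m) y = mode n y * mode m y := by
  rw [mode, mode, mode, ← exp_add]; push_cast; ring_nf

theorem integral_mode (k : ℤ) :
    ∫ y in (-Real.pi)..Real.pi, mode k y = if k = 0 then 2 * (Real.pi : ℂ) else 0 := by
  split_ifs with h
  · subst h; simp [mode, two_mul]
  · have hc : (k : ℂ) * I ≠ 0 := mul_ne_zero (by exact_mod_cast h) I_ne_zero
    have e : ∀ y : ℝ, mode k y = exp ((k : ℂ) * I * y) := fun y => by rw [mode]; congr 1; ring
    simp only [e]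
    rw [integral_exp_mul_complex hc, div_eq_zero_iff]
    refine Or.inl (sub_eq_zero.2 (exp_eq_exp_iff_exists_int.2 ⟨k, ?_⟩))
    push_cast; ring

theorem hasSum_integral_mul {u : ℤ → ℂ} (hu : Summable fun n => ‖u n‖) {U g : ℝ → ℂ}
    (hU : ∀ y, HasSum (fun n => u n * mode n y) (U y)) (hg : Continuous g) :
    HasSum (fun n => u n * ∫ y in (-Real.pi)..Real.pi, mode n y * g y)
      (∫ y in (-Real.pi)..Real.pi, U y * g y) := by
  simp only [← intervalIntegral.integral_const_mul, ← mul_assoc]
  refine intervalIntegral.hasSum_integral_of_dominated_convergence (fun n y => ‖u n‖ * ‖g y‖)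
    (fun n => ((continuous_const.mul (continuous_mode n)).mul hg).aestronglyMeasurable)
    (fun n => Filter.Eventually.of_forall fun y _ => by simp [norm_mode])
    (Filter.Eventually.of_forall fun y _ => hu.mul_right _) ?_
    (Filter.Eventually.of_forall fun y _ => (hU y).mul_right _)
  simp only [tsum_mul_right]
  exact (continuous_const.mul hg.norm).intervalIntegrable _ _

/-- The inner product of two absolutely convergent Fourier series. -/
theorem hasSum_pairing {u v : ℤ → ℂ} (hu : Summable fun n => ‖u n‖) (hv : Summable fun n => ‖v n‖)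
    {U V : ℝ → ℂ} (hUc : Continuous U) (hU : ∀ y, HasSum (fun n => u n * mode n y) (U y))
    (hV : ∀ y, HasSum (fun n => v n * mode n y) (V y)) :
    HasSum (fun n => 2 * (Real.pi : ℂ) * (conj (u n) * v n))
      (∫ y in (-Real.pi)..Real.pi, conj (U y) * V y) := by
  have key : ∀ n, ∫ y in (-Real.pi)..Real.pi, mode n y * conj (U y) =
      2 * (Real.pi : ℂ) * conj (u n) := by
    intro n
    have h := hasSum_integral_mul hu hU (continuous_mode (-n))
    have hs : HasSum (fun m => u m * ∫ y in (-Real.pi)..Real.pi, mode m y * mode (-n) y)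
        (2 * (Real.pi : ℂ) * u n) := by
      simp only [← mode_add, integral_mode]
      convert hasSum_ite_eq n (2 * (Real.pi : ℂ) * u n) using 2 with m
      by_cases hm : m = n
      · subst hm; simp [mul_comm]
      · simp [hm, ← sub_eq_add_neg, sub_eq_zero]
    have e := congrArg conj (h.unique hs)
    rw [map_mul, map_mul, map_ofNat, conj_ofReal,
      ← intervalIntegral.intervalIntegral_conj] at e
    rw [← e]
    exact intervalIntegral.integral_congr fun y _ => by
      simp only [map_mul, conj_mode, neg_neg]; ring
  have h := hasSum_integral_mul hv hV (continuous_conj.comp hUc)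
  simp only [Function.comp_apply, key] at h
  convert h using 1
  · funext n; ring
  · exact intervalIntegral.integral_congr fun y _ => mul_comm _ _

end

end Vale.Agent.P142.Area
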