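import Vale.Agent.P142.Area.Theorem

/-!
The first two Grunsky inequalities in terms of the Taylor coefficients of a normalised univalent
function.
-/

open Complex Set Metric Finset Filter Topology

namespace Vale.Agent.P142.Area

noncomputable section

theorem contDiffAt_of {F : ℂ → ℂ} (hF : DifferentiableOn ℂ F (ball 0 1)) (n : ℕ) :
    ContDiffAt ℂ n F 0 :=
  (hF.analyticOnNhd isOpen_ball 0 (mem_ball_self one_pos)).contDiffAt

theorem tc_mul {F G : ℂ → ℂ} (hF : DifferentiableOn ℂ F (ball 0 1))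
    (hG : DifferentiableOn ℂ G (ball 0 1)) (n : ℕ) :
    tc (fun z => F z * G z) n = ∑ i ∈ range (n + 1), tc F i * tc G (n - i) := by
  rw [tc, iteratedDeriv_fun_mul (contDiffAt_of hF n) (contDiffAt_of hG n), mul_sum]
  refine sum_congr rfl fun i hi => ?_
  have hin : i ≤ n := Nat.le_of_lt_succ (mem_range.1 hi)
  have h := Nat.choose_mul_factorial_mul_factorial hin
  have hc : ((n.choose i : ℕ) : ℂ) * (i.factorial : ℂ) * ((n - i).factorial : ℂ) = (n.factorial : ℂ) := by
    exact_mod_cast h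
  have h1 : (i.factorial : ℂ) ≠ 0 := Nat.cast_ne_zero.2 i.factorial_ne_zero
  have h2 : ((n - i).factorial : ℂ) ≠ 0 := Nat.cast_ne_zero.2 (n - i).factorial_ne_zero
  have h3 : (n.choose i : ℂ) ≠ 0 := Nat.cast_ne_zero.2 (Nat.choose_pos hin).ne'
  rw [tc, tc, ← hc]
  field_simp

theorem tc_add {F G : ℂ → ℂ} (hF : DifferentiableOn ℂ F (ball 0 1))
    (hG : DifferentiableOn ℂ G (ball 0 1)) (n : ℕ) :
    tc (fun z => F z + G z) n = tc F n + tc G n := by
  rw [tc, iteratedDeriv_fun_add (contDiffAt_of hF n) (contDiffAt_of hG n), tc, tc]; ring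

theorem tc_const_mul (t : ℂ) (F : ℂ → ℂ) (n : ℕ) : tc (fun z => t * F z) n = t * tc F n := by
  rw [tc, iteratedDeriv_const_mul_field, tc]; ring

theorem tc_const (t : ℂ) (n : ℕ) : tc (fun _ => t) n = if n = 0 then t else 0 := by
  rw [tc, iteratedDeriv_const]; split_ifs with h <;> simp [h]

theorem tc_id (n : ℕ) : tc (fun z => z) n = if n = 1 then 1 else 0 := by
  rw [tc, iteratedDeriv_fun_id_zero]; split_ifs with h <;> simp [h]

theorem tc_congr {F G : ℂ → ℂ} (h : ∀ z ∈ ball (0 : ℂ) 1, F z = G z) (n : ℕ) : tc F n = tc G n := by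
  have he : F =ᶠ[𝓝 0] G := eventually_of_mem (isOpen_ball.mem_nhds (mem_ball_self one_pos)) h
  rw [tc, tc, he.iteratedDeriv_eq n]

theorem tc_dslope {F : ℂ → ℂ} (hF : DifferentiableOn ℂ F (ball 0 1)) (n : ℕ) :
    tc (dslope F 0) n = tc F (n + 1) := by
  have hD : DifferentiableOn ℂ (dslope F 0) (ball 0 1) :=
    (differentiableOn_dslope (isOpen_ball.mem_nhds (mem_ball_self one_pos))).2 hF
  have h : ∀ z ∈ ball (0 : ℂ) 1, F z = F 0 + z * dslope F 0 z := fun z _ => by
    have := sub_smul_dslope F 0 z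
    simp only [sub_zero, smul_eq_mul] at this
    rw [this]; ring
  rw [tc_congr h (n + 1), tc_add (differentiableOn_const _)
    ((differentiable_fun_id.differentiableOn (s := ball (0 : ℂ) 1)).fun_mul hD), tc_mul (differentiable_fun_id.differentiableOn (s := ball (0 : ℂ) 1)) hD, tc_const,
    if_neg n.succ_ne_zero, zero_add, sum_eq_single 1]
  · simp [tc_id]
  · intro i _ hi; simp [tc_id, hi]
  · simp

/-- The first Grunsky coefficient. -/
def g11 (a : ℕ → ℂ) : ℂ := a 3 - a 2 ^ 2

/-- The mixed Grunsky coefficient. -/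
def g12 (a : ℕ → ℂ) : ℂ := a 4 - 2 * a 2 * a 3 + a 2 ^ 3

/-- The second diagonal Grunsky coefficient. -/
def g22 (a : ℕ → ℂ) : ℂ :=
  a 5 - 2 * a 2 * a 4 - 3 / 2 * a 3 ^ 2 + 4 * a 2 ^ 2 * a 3 - 3 / 2 * a 2 ^ 4

/-- The strong Grunsky inequality of order two. -/
theorem grunsky_two {f : ℂ → ℂ} (hf : DifferentiableOn ℂ f (ball 0 1))
    (hinj : InjOn f (ball 0 1)) (hf0 : f 0 = 0) (hf1 : deriv f 0 = 1) (x₁ x₂ : ℂ) :
    normSq (g11 (tc f) * x₁ + g12 (tc f) * x₂) + 2 * normSq (g12 (tc f) * x₁ + g22 (tc f) * x₂) ≤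
      normSq x₁ + normSq x₂ / 2 := by
  have hnhds := isOpen_ball.mem_nhds (mem_ball_self (x := (0 : ℂ)) one_pos)
  set q := dslope f 0 with hq
  have hqd : DifferentiableOn ℂ q (ball 0 1) := (differentiableOn_dslope hnhds).2 hf
  have hfq : ∀ z : ℂ, f z = z * q z := fun z => by
    have := sub_smul_dslope f 0 z
    simp only [sub_zero, smul_eq_mul, hf0] at this
    exact this.symm
  have hq0 : ∀ z ∈ ball (0 : ℂ) 1, q z ≠ 0 := fun z hz h => by
    rcases eq_or_ne z 0 with rfl | hz0
    · rw [hq, dslope_same, hf1] at h; exact one_ne_zero h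
    · exact hz0 (hinj hz (mem_ball_self one_pos) (by rw [hfq z, h, mul_zero, hf0]))
  set u : ℂ → ℂ := fun z => (q z)⁻¹ with hu
  have hud : DifferentiableOn ℂ u (ball 0 1) := hqd.inv hq0
  have hqu : ∀ n, (∑ i ∈ range (n + 1), tc q i * tc u (n - i)) = if n = 0 then 1 else 0 := fun n => by
    rw [← tc_mul hqd hud, tc_congr (G := fun _ => (1 : ℂ))
      (fun z hz => mul_inv_cancel₀ (hq0 z hz)), tc_const]
  have hqn : ∀ n, tc q n = tc f (n + 1) := fun n => by rw [hq, tc_dslope hf]
  have hf1' : tc f 1 = 1 := by simp [tc, iteratedDeriv_one, hf1]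
  set a := tc f with ha
  have u0 : tc u 0 = 1 := by simpa [sum_range_succ, hqn, hf1'] using hqu 0
  have u1 : tc u 1 = -a 2 := by
    have h := hqu 1
    simp [sum_range_succ, hqn, hf1', u0] at h
    linear_combination h
  have u2 : tc u 2 = a 2 ^ 2 - a 3 := by
    have h := hqu 2
    simp [sum_range_succ, hqn, hf1', u0, u1] at h
    linear_combination h
  have u3 : tc u 3 = -a 4 + 2 * a 2 * a 3 - a 2 ^ 3 := by
    have h := hqu 3
    simp [sum_range_succ, hqn, hf1', u0, u1, u2] at h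
    linear_combination h
  have u4 : tc u 4 = -a 5 + 2 * a 2 * a 4 + a 3 ^ 2 - 3 * a 2 ^ 2 * a 3 + a 2 ^ 4 := by
    have h := hqu 4
    simp [sum_range_succ, hqn, hf1', u0, u1, u2, u3] at h
    linear_combination h
  set w : ℂ → ℂ := fun z => u z + a 2 * z with hw
  have hwd : DifferentiableOn ℂ w (ball 0 1) :=
    hud.fun_add ((differentiableOn_const _).fun_mul (differentiable_fun_id.differentiableOn (s := ball (0 : ℂ) 1)))
  have htw : ∀ n, tc w n = tc u n + a 2 * if n = 1 then 1 else 0 := fun n => by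
    simp only [hw]
    rw [tc_add hud ((differentiableOn_const _).fun_mul (differentiable_fun_id.differentiableOn (s := ball (0 : ℂ) 1))), tc_const_mul, tc_id]
  set Nf : ℂ → ℂ := fun z =>
    x₁ * (z * w z) + x₂ / 2 * (w z * w z) + (-x₁) * z + (-(x₂ / 2)) with hNf
  have d1 : DifferentiableOn ℂ (fun z => x₁ * (z * w z)) (ball 0 1) :=
    (differentiableOn_const _).fun_mul ((differentiable_fun_id.differentiableOn (s := ball (0 : ℂ) 1)).fun_mul hwd)
  have d2 : DifferentiableOn ℂ (fun z => x₂ / 2 * (w z * w z)) (ball 0 1) :=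
    (differentiableOn_const _).fun_mul (hwd.fun_mul hwd)
  have d3 : DifferentiableOn ℂ (fun z => (-x₁) * z) (ball 0 1) :=
    (differentiableOn_const _).fun_mul (differentiable_fun_id.differentiableOn (s := ball (0 : ℂ) 1))
  have hNd : DifferentiableOn ℂ Nf (ball 0 1) :=
    ((d1.fun_add d2).fun_add d3).fun_add (differentiableOn_const _)
  have htN : ∀ n, tc Nf n = x₁ * (∑ i ∈ range (n + 1), (if i = 1 then 1 else 0) * tc w (n - i)) +
      x₂ / 2 * (∑ i ∈ range (n + 1), tc w i * tc w (n - i)) +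
      (-x₁) * (if n = 1 then 1 else 0) + (if n = 0 then -(x₂ / 2) else 0) := fun n => by
    simp only [hNf]
    rw [tc_add ((d1.fun_add d2).fun_add d3) (differentiableOn_const _), tc_add (d1.fun_add d2) d3, tc_add d1 d2,
      tc_const_mul, tc_const_mul, tc_const_mul, tc_mul (differentiable_fun_id.differentiableOn (s := ball (0 : ℂ) 1)) hwd,
      tc_mul hwd hwd, tc_const, tc_id]
    simp only [tc_id]
  have hN0 : Nf 0 = 0 := by
    have h := htN 0
    simp [tc, iteratedDeriv_zero] at h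
    have h0 : w 0 = 1 := by
      simp [hw, hu, hq, dslope_same, hf1]
    simp [hNf, h0]
  set H := dslope (dslope Nf 0) 0 with hH
  have hDd : DifferentiableOn ℂ (dslope Nf 0) (ball 0 1) := (differentiableOn_dslope hnhds).2 hNd
  have hHd : DifferentiableOn ℂ H (ball 0 1) := (differentiableOn_dslope hnhds).2 hDd
  have hN1 : dslope Nf 0 0 = 0 := by
    have h : tc (dslope Nf 0) 0 = 0 := by
      rw [tc_dslope hNd, htN]
      simp [sum_range_succ, htw, u0, u1]
    simpa [tc, iteratedDeriv_zero] using h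
  set c : ℕ → ℂ := fun n => if n = 1 then x₁ else x₂ / 2 with hc
  have heq : ∀ z ∈ ball (0 : ℂ) 1, z ≠ 0 →
      (Polynomial.C x₁ * (Polynomial.X + Polynomial.C (a 2)) +
        Polynomial.C (x₂ / 2) * (Polynomial.X + Polynomial.C (a 2)) ^ 2).eval (f z)⁻¹ =
      ∑ n ∈ Finset.Icc 1 2, c n * (z ^ n)⁻¹ + H z := by
    intro z hz hz0
    have e1 : dslope Nf 0 z = z * H z := by
      have := sub_smul_dslope (dslope Nf 0) 0 z
      simp only [sub_zero, smul_eq_mul, hN1] at this
      exact this.symm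
    have e2 : Nf z = z * (z * H z) := by
      have := sub_smul_dslope Nf 0 z
      simp only [sub_zero, smul_eq_mul, hN0] at this
      rw [← this, e1]
    simp only [hNf, hw] at e2
    have hfz : (f z)⁻¹ = u z / z := by rw [hfq z, hu, mul_inv]; ring
    simp only [Polynomial.eval_add, Polynomial.eval_mul, Polynomial.eval_C, Polynomial.eval_X,
      Polynomial.eval_pow, hfz]
    rw [show Finset.Icc 1 2 = ({1, 2} : Finset ℕ) by decide, sum_pair (by norm_num)]
    simp only [hc, if_true, if_neg (show ¬ (2 : ℕ) = 1 by norm_num)]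
    field_simp
    linear_combination 2 * e2
  have key := area_theorem hf hinj hf0 _ hHd 2 c heq 3
  rw [show Finset.Icc 1 2 = ({1, 2} : Finset ℕ) by decide, sum_pair (by norm_num)] at key
  have eH : ∀ n, tc H n = tc Nf (n + 2) := fun n => by rw [hH, tc_dslope hDd, tc_dslope hNd]
  have e1 : tc H 1 = -(g11 a * x₁ + g12 a * x₂) := by
    rw [eH, htN]; simp [sum_range_succ, htw, u0, u1, u2, u3, g11, g12]; ring
  have e2 : tc H 2 = -(g12 a * x₁ + g22 a * x₂) := by
    rw [eH, htN]; simp [sum_range_succ, htw, u0, u1, u2, u3, u4, g12, g22]; ring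
  simp only [sum_range_succ, sum_range_zero, e1, e2, hc, normSq_neg, if_true,
    if_neg (show ¬ (2 : ℕ) = 1 by norm_num), map_div₀] at key
  have h2 : normSq (2 : ℂ) = 4 := by norm_num [normSq]
  rw [h2] at key
  push_cast at key
  linarith

end

end Vale.Agent.P142.Area
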