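import Vale.Agent.P142.Area.Quarter

/-!
Grunsky inequalities of the odd square root transform, and the first Grunsky row.
-/

open Complex Set Metric Finset Filter Topology

namespace Vale.Agent.P142.Area

noncomputable section

theorem tc_zero (F : ℂ → ℂ) : tc F 0 = F 0 := by simp [tc, iteratedDeriv_zero]

theorem sq_mem {z : ℂ} (hz : z ∈ ball (0 : ℂ) 1) : z ^ 2 ∈ ball (0 : ℂ) 1 := by
  rw [mem_ball_zero_iff] at hz ⊢
  rw [norm_pow]
  exact pow_lt_one₀ (norm_nonneg z) hz two_ne_zero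

theorem odd_diff {K : ℂ → ℂ} (hK : DifferentiableOn ℂ K (ball 0 1)) :
    DifferentiableOn ℂ (fun z => z * K (z ^ 2)) (ball 0 1) :=
  differentiable_fun_id.differentiableOn.mul
    (hK.comp (differentiable_fun_id.differentiableOn.pow 2) fun _ h => sq_mem h)

theorem tc_sq (n : ℕ) : tc (fun z => z * z) n = if n = 2 then 1 else 0 := by
  rw [tc_mul differentiable_fun_id.differentiableOn differentiable_fun_id.differentiableOn]
  rcases n with _ | n
  · simp [sum_range_succ, tc_id]
  rw [sum_eq_single 1 (fun i _ hi => by simp [tc_id, hi]) (by simp)]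
  rw [tc_id, tc_id, if_pos rfl, one_mul, Nat.add_sub_cancel]
  exact if_congr (Iff.intro (fun h => by omega) fun h => by omega) rfl rfl

theorem tc_odd (m : ℕ) : ∀ {K : ℂ → ℂ}, DifferentiableOn ℂ K (ball 0 1) →
    tc (fun z => z * K (z ^ 2)) (2 * m + 1) = tc K m := by
  induction m with
  | zero =>
    intro K hK
    have hc : DifferentiableOn ℂ (fun z => K (z ^ 2)) (ball 0 1) :=
      hK.comp (differentiable_fun_id.differentiableOn.pow 2) fun _ h => sq_mem h
    rw [tc_mul differentiable_fun_id.differentiableOn hc]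
    simp [sum_range_succ, tc_id, tc_zero]
  | succ m ih =>
    intro K hK
    have hd : DifferentiableOn ℂ (dslope K 0) (ball 0 1) :=
      (differentiableOn_dslope (isOpen_ball.mem_nhds (mem_ball_self one_pos))).2 hK
    have e : ∀ z ∈ ball (0 : ℂ) 1,
        z * K (z ^ 2) = K 0 * z + (z * z) * (z * dslope K 0 (z ^ 2)) := fun z _ => by
      have h := sub_smul_dslope K 0 (z ^ 2)
      simp only [sub_zero, smul_eq_mul] at h
      linear_combination (-z) * h
    rw [← tc_dslope hK, ← ih hd, tc_congr e,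
      tc_add ((differentiableOn_const _).fun_mul differentiable_fun_id.differentiableOn)
        ((differentiable_fun_id.differentiableOn.fun_mul
          differentiable_fun_id.differentiableOn).fun_mul (odd_diff hd)),
      tc_const_mul, tc_id, if_neg (by omega), mul_zero, zero_add,
      tc_mul (differentiable_fun_id.differentiableOn.fun_mul differentiable_fun_id.differentiableOn)
        (odd_diff hd), sum_eq_single 2]
    · rw [tc_sq, if_pos rfl, one_mul, show 2 * (m + 1) + 1 - 2 = 2 * m + 1 by omega]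
    · intro i _ hi; simp [tc_sq, hi]
    · intro h; exact absurd (Finset.mem_range.2 (by omega)) h

/-- Odd Grunsky coefficient `(1,1)`. -/
def o11 (a : ℕ → ℂ) : ℂ := a 2 / 2

/-- Odd Grunsky coefficient `(1,3)`. -/
def o13 (a : ℕ → ℂ) : ℂ := a 3 / 2 - 3 / 8 * a 2 ^ 2

/-- Odd Grunsky coefficient `(3,3)`. -/
def o33 (a : ℕ → ℂ) : ℂ := a 4 / 2 - a 2 * a 3 + 13 / 24 * a 2 ^ 3

/-- Odd Grunsky coefficient `(1,5)`. -/
def o15 (a : ℕ → ℂ) : ℂ := a 4 / 2 - 3 / 4 * a 2 * a 3 + 5 / 16 * a 2 ^ 3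

/-- Odd Grunsky coefficient `(3,5)`. -/
def o35 (a : ℕ → ℂ) : ℂ :=
  a 5 / 2 - a 2 * a 4 - 5 / 8 * a 3 ^ 2 + 29 / 16 * a 2 ^ 2 * a 3 - 85 / 128 * a 2 ^ 4

/-- Odd Grunsky coefficient `(1,7)`. -/
def o17 (a : ℕ → ℂ) : ℂ :=
  a 5 / 2 - 3 / 4 * a 2 * a 4 - 3 / 8 * a 3 ^ 2 + 15 / 16 * a 2 ^ 2 * a 3 - 35 / 128 * a 2 ^ 4

/-- The coefficient `(1,3)` of the first Grunsky row. -/
def g13 (a : ℕ → ℂ) : ℂ := a 5 - 2 * a 2 * a 4 - a 3 ^ 2 + 3 * a 2 ^ 2 * a 3 - a 2 ^ 4

/-- The odd Grunsky inequalities. -/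
theorem grunsky_odd {f : ℂ → ℂ} (hf : DifferentiableOn ℂ f (ball 0 1))
    (hinj : InjOn f (ball 0 1)) (hf0 : f 0 = 0) (hf1 : deriv f 0 = 1) :
    (∀ x₁ x₃ : ℂ, normSq (o11 (tc f) * x₁ + o13 (tc f) * x₃) +
      3 * normSq (o13 (tc f) * x₁ + o33 (tc f) * x₃) +
      5 * normSq (o15 (tc f) * x₁ + o35 (tc f) * x₃) ≤ normSq x₁ + normSq x₃ / 3) ∧
    normSq (o11 (tc f)) + 3 * normSq (o13 (tc f)) + 5 * normSq (o15 (tc f)) +
      7 * normSq (o17 (tc f)) ≤ 1 := by
  obtain ⟨hqd, hq1, hfq, hq0⟩ := dslope_univalent hf hinj hf0 hf1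
  obtain ⟨L, hLd, hL0, hL⟩ := exists_log hqd hq0 hq1
  set s : ℂ → ℂ := fun w => exp (L w / 2) with hs
  have hsd : DifferentiableOn ℂ s (ball 0 1) := (hLd.div_const 2).cexp
  have hs2 : ∀ w ∈ ball (0 : ℂ) 1, s w * s w = dslope f 0 w := fun w hw => by
    rw [hs, ← exp_add, ← hL w hw]; congr 1; ring
  set h : ℂ → ℂ := fun z => z * s (z ^ 2) with hh
  have hhd : DifferentiableOn ℂ h (ball 0 1) := odd_diff hsd
  have hh0 : h 0 = 0 := by simp [hh]
  have hf2 : ∀ z ∈ ball (0 : ℂ) 1, h z * h z = f (z ^ 2) := fun z hz => by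
    rw [hh, hfq (z ^ 2), ← hs2 _ (sq_mem hz)]; ring
  have hhi : InjOn h (ball 0 1) := by
    intro x hx y hy hxy
    have e : x ^ 2 = y ^ 2 := hinj (sq_mem hx) (sq_mem hy) (by rw [← hf2 x hx, ← hf2 y hy, hxy])
    rcases sq_eq_sq_iff_eq_or_eq_neg.1 e with h1 | h1
    · exact h1
    · subst h1
      simp only [hh, neg_sq, neg_mul] at hxy
      have h2 : y * s (y ^ 2) = 0 := by linear_combination (-1 / 2 : ℂ) * hxy
      rcases mul_eq_zero.1 h2 with h3 | h3
      · simp [h3]
      · exact absurd h3 (exp_ne_zero _)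
  set si : ℂ → ℂ := fun w => (s w)⁻¹ with hsi
  have hsid : DifferentiableOn ℂ si (ball 0 1) := hsd.inv fun w _ => exp_ne_zero _
  set a := tc f with ha
  have hqn : ∀ n, tc (dslope f 0) n = a (n + 1) := fun n => tc_dslope hf n
  have hsq' : ∀ n, (∑ i ∈ range (n + 1), tc s i * tc s (n - i)) = a (n + 1) := fun n => by
    rw [← tc_mul hsd hsd, tc_congr hs2, hqn]
  have hsinv : ∀ n, (∑ i ∈ range (n + 1), tc s i * tc si (n - i)) = if n = 0 then 1 else 0 :=
    fun n => by
      rw [← tc_mul hsd hsid, tc_congr (G := fun _ => (1 : ℂ))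
        (fun w _ => mul_inv_cancel₀ (exp_ne_zero _)), tc_const]
  have t0 : tc s 0 = 1 := by simp [tc_zero, hs, hL0]
  have t1 : tc s 1 = a 2 / 2 := by
    have h := hsq' 1
    simp [sum_range_succ, t0] at h
    linear_combination (1 / 2 : ℂ) * h
  have t2 : tc s 2 = a 3 / 2 - a 2 ^ 2 / 8 := by
    have h := hsq' 2
    simp [sum_range_succ, t0, t1] at h
    linear_combination (1 / 2 : ℂ) * h
  have t3 : tc s 3 = a 4 / 2 - a 2 * a 3 / 4 + a 2 ^ 3 / 16 := by
    have h := hsq' 3
    simp [sum_range_succ, t0, t1, t2] at h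
    linear_combination (1 / 2 : ℂ) * h
  have t4 : tc s 4 = a 5 / 2 - a 2 * a 4 / 4 - a 3 ^ 2 / 8 + 3 / 16 * a 2 ^ 2 * a 3 -
      5 / 128 * a 2 ^ 4 := by
    have h := hsq' 4
    simp [sum_range_succ, t0, t1, t2, t3] at h
    linear_combination (1 / 2 : ℂ) * h
  have v0 : tc si 0 = 1 := by simp [tc_zero, hsi, hs, hL0]
  have v1 : tc si 1 = -(a 2 / 2) := by
    have h := hsinv 1
    simp [sum_range_succ, t0, t1, v0] at h
    linear_combination h
  have v2 : tc si 2 = 3 / 8 * a 2 ^ 2 - a 3 / 2 := by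
    have h := hsinv 2
    simp [sum_range_succ, t0, t1, t2, v0, v1] at h
    linear_combination h
  have v3 : tc si 3 = -o15 a := by
    have h := hsinv 3
    simp [sum_range_succ, t0, t1, t2, t3, v0, v1, v2] at h
    rw [o15]
    linear_combination h
  have v4 : tc si 4 = -o17 a := by
    have h := hsinv 4
    simp [sum_range_succ, t0, t1, t2, t3, t4, v0, v1, v2, v3, o15] at h
    rw [o17]
    linear_combination h
  have main : ∀ x₁ x₃ : ℂ, ∀ M : ℕ, ∃ Nf : ℂ → ℂ,
      (∀ n, tc Nf n = x₁ * (∑ i ∈ range (n + 1), (if i = 1 then 1 else 0) * tc si (n - i)) +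
        x₃ / 3 * ((∑ i ∈ range (n + 1), tc si i * ∑ j ∈ range (n - i + 1), tc si j * tc si (n - i - j)) +
          3 * (a 2 / 2) * ∑ i ∈ range (n + 1), (if i = 1 then 1 else 0) * tc si (n - i))) ∧
      ∃ H : ℂ → ℂ, (∀ m, tc H (2 * m + 1) = tc Nf (m + 2)) ∧
        ∑ n ∈ range M, (n : ℝ) * normSq (tc H n) ≤ normSq x₁ + normSq x₃ / 3 := by
    intro x₁ x₃ M
    set Nf : ℂ → ℂ := fun w =>
      x₁ * (w * si w) + x₃ / 3 * (si w * (si w * si w) + 3 * (a 2 / 2) * (w * si w)) with hNf
    have d1 : DifferentiableOn ℂ (fun w => w * si w) (ball 0 1) :=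
      differentiable_fun_id.differentiableOn.fun_mul hsid
    have d2 : DifferentiableOn ℂ (fun w => si w * (si w * si w)) (ball 0 1) :=
      hsid.fun_mul (hsid.fun_mul hsid)
    have d3 : DifferentiableOn ℂ (fun w => 3 * (a 2 / 2) * (w * si w)) (ball 0 1) :=
      (differentiableOn_const _).fun_mul d1
    have hNd : DifferentiableOn ℂ Nf (ball 0 1) :=
      ((differentiableOn_const _).fun_mul d1).fun_add
        ((differentiableOn_const _).fun_mul (d2.fun_add d3))
    have htN : ∀ n, tc Nf n =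
        x₁ * (∑ i ∈ range (n + 1), (if i = 1 then 1 else 0) * tc si (n - i)) +
        x₃ / 3 * ((∑ i ∈ range (n + 1), tc si i * ∑ j ∈ range (n - i + 1), tc si j * tc si (n - i - j)) +
          3 * (a 2 / 2) * ∑ i ∈ range (n + 1), (if i = 1 then 1 else 0) * tc si (n - i)) := fun n => by
      simp only [hNf]
      rw [tc_add ((differentiableOn_const _).fun_mul d1)
        ((differentiableOn_const _).fun_mul (d2.fun_add d3)), tc_const_mul, tc_const_mul,
        tc_add d2 d3, tc_const_mul, tc_mul differentiable_fun_id.differentiableOn hsid,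
        tc_mul hsid (hsid.fun_mul hsid)]
      simp only [tc_id, tc_mul hsid hsid]
    refine ⟨Nf, htN, ?_⟩
    have hnh := isOpen_ball.mem_nhds (mem_ball_self (x := (0 : ℂ)) one_pos)
    have hDd : DifferentiableOn ℂ (dslope Nf 0) (ball 0 1) := (differentiableOn_dslope hnh).2 hNd
    have hKd : DifferentiableOn ℂ (dslope (dslope Nf 0) 0) (ball 0 1) :=
      (differentiableOn_dslope hnh).2 hDd
    have hN0 : Nf 0 = x₃ / 3 := by
      rw [← tc_zero Nf, htN]; simp [sum_range_succ, v0]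
    have hN1 : dslope Nf 0 0 = x₁ := by
      rw [← tc_zero (dslope Nf 0), tc_dslope hNd, htN]
      simp [sum_range_succ, v0, v1]
      ring_nf
      simp
    refine ⟨fun z => z * dslope (dslope Nf 0) 0 (z ^ 2), fun m => by
      rw [tc_odd m hKd, tc_dslope hDd, tc_dslope hNd], ?_⟩
    set c : ℕ → ℂ := fun n => if n = 1 then x₁ else if n = 3 then x₃ / 3 else 0 with hc
    have key := area_theorem hhd hhi hh0
      (Polynomial.C x₁ * Polynomial.X + Polynomial.C (x₃ / 3) *
        (Polynomial.X ^ 3 + Polynomial.C (3 * (a 2 / 2)) * Polynomial.X))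
      (odd_diff hKd) 3 c (fun z hz hz0 => by
        have e1 := sub_smul_dslope Nf 0 (z ^ 2)
        have e2 := sub_smul_dslope (dslope Nf 0) 0 (z ^ 2)
        simp only [sub_zero, smul_eq_mul, hN0, hN1] at e1 e2
        rw [show Nf (z ^ 2) = x₁ * (z ^ 2 * si (z ^ 2)) + x₃ / 3 * (si (z ^ 2) * (si (z ^ 2) *
          si (z ^ 2)) + 3 * (a 2 / 2) * (z ^ 2 * si (z ^ 2))) from rfl,
          show si (z ^ 2) = (s (z ^ 2))⁻¹ from rfl] at e1
        rw [show Finset.Icc 1 3 = ({1, 2, 3} : Finset ℕ) by decide,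
          sum_insert (by norm_num), sum_pair (by norm_num)]
        simp only [hc, if_true, if_neg (show ¬ (2 : ℕ) = 1 by norm_num),
          if_neg (show ¬ (2 : ℕ) = 3 by norm_num), if_neg (show ¬ (3 : ℕ) = 1 by norm_num),
          zero_mul, Polynomial.eval_add, Polynomial.eval_mul, Polynomial.eval_C,
          Polynomial.eval_X, Polynomial.eval_pow]
        have hinv : (h z)⁻¹ = si (z ^ 2) / z := by
          simp only [hh, hsi, mul_inv]; ring
        rw [hinv]
        field_simp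
        linear_combination (-6 : ℂ) * e1 - 6 * z ^ 2 * e2) M
    refine key.trans (le_of_eq ?_)
    rw [show Finset.Icc 1 3 = ({1, 2, 3} : Finset ℕ) by decide,
      sum_insert (by norm_num), sum_pair (by norm_num)]
    simp [hc]
    ring
  refine ⟨fun x₁ x₃ => ?_, ?_⟩
  · obtain ⟨Nf, htN, H, hH, hle⟩ := main x₁ x₃ 6
    have e1 : tc H 1 = -(o11 a * x₁ + o13 a * x₃) := by
      rw [show (1 : ℕ) = 2 * 0 + 1 from rfl, hH, htN]
      simp [sum_range_succ, v0, v1, v2, o11, o13]; ring
    have e3 : tc H 3 = -(o13 a * x₁ + o33 a * x₃) := by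
      rw [show (3 : ℕ) = 2 * 1 + 1 from rfl, hH, htN]
      simp [sum_range_succ, v0, v1, v2, v3, o13, o15, o33]; ring
    have e5 : tc H 5 = -(o15 a * x₁ + o35 a * x₃) := by
      rw [show (5 : ℕ) = 2 * 2 + 1 from rfl, hH, htN]
      simp [sum_range_succ, v0, v1, v2, v3, v4, o15, o17, o35]; ring
    simp only [sum_range_succ, sum_range_zero, e1, e3, e5, normSq_neg] at hle
    push_cast at hle
    linarith [normSq_nonneg (tc H 2), normSq_nonneg (tc H 4)]
  · obtain ⟨Nf, htN, H, hH, hle⟩ := main 1 0 8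
    have e1 : tc H 1 = -o11 a := by
      rw [show (1 : ℕ) = 2 * 0 + 1 from rfl, hH, htN]; simp [sum_range_succ, v1, o11]
    have e3 : tc H 3 = -o13 a := by
      rw [show (3 : ℕ) = 2 * 1 + 1 from rfl, hH, htN]; simp [sum_range_succ, v2, o13]
    have e5 : tc H 5 = -o15 a := by
      rw [show (5 : ℕ) = 2 * 2 + 1 from rfl, hH, htN]; simp [sum_range_succ, v3]
    have e7 : tc H 7 = -o17 a := by
      rw [show (7 : ℕ) = 2 * 3 + 1 from rfl, hH, htN]; simp [sum_range_succ, v4]
    simp only [sum_range_succ, sum_range_zero, e1, e3, e5, e7, normSq_neg, map_one, map_zero] at hle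
    push_cast at hle
    linarith [normSq_nonneg (tc H 2), normSq_nonneg (tc H 4), normSq_nonneg (tc H 6)]

/-- The first Grunsky row. -/
theorem grunsky_row {f : ℂ → ℂ} (hf : DifferentiableOn ℂ f (ball 0 1))
    (hinj : InjOn f (ball 0 1)) (hf0 : f 0 = 0) (hf1 : deriv f 0 = 1) :
    normSq (g11 (tc f)) + 2 * normSq (g12 (tc f)) + 3 * normSq (g13 (tc f)) ≤ 1 := by
  obtain ⟨hqd, hq1, hfq, hq0⟩ := dslope_univalent hf hinj hf0 hf1
  set u : ℂ → ℂ := fun z => (dslope f 0 z)⁻¹ with hu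
  have hud : DifferentiableOn ℂ u (ball 0 1) := hqd.inv hq0
  set a := tc f with ha
  have hqu : ∀ n, (∑ i ∈ range (n + 1), a (i + 1) * tc u (n - i)) = if n = 0 then 1 else 0 := fun n => by
    simp only [ha, ← tc_dslope hf]
    rw [← tc_mul hqd hud, tc_congr (G := fun _ => (1 : ℂ))
      (fun z hz => mul_inv_cancel₀ (hq0 z hz)), tc_const]
  have a1 : a 1 = 1 := by simp [ha, tc, iteratedDeriv_one, hf1]
  have u0 : tc u 0 = 1 := by simp [tc_zero, hu, hf1]
  have u1 : tc u 1 = -a 2 := by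
    have h := hqu 1
    simp [sum_range_succ, a1, u0] at h
    linear_combination h
  have u2 : tc u 2 = -g11 a := by
    have h := hqu 2
    simp [sum_range_succ, a1, u0, u1] at h
    rw [g11]; linear_combination h
  have u3 : tc u 3 = -g12 a := by
    have h := hqu 3
    simp [sum_range_succ, a1, u0, u1, u2, g11] at h
    rw [g12]; linear_combination h
  have u4 : tc u 4 = -g13 a := by
    have h := hqu 4
    simp [sum_range_succ, a1, u0, u1, u2, u3, g11, g12] at h
    rw [g13]; linear_combination h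
  set Nf : ℂ → ℂ := fun z => u z + a 2 * z with hNf
  have d1 : DifferentiableOn ℂ (fun z => a 2 * z) (ball 0 1) :=
    (differentiableOn_const _).fun_mul differentiable_fun_id.differentiableOn
  have hNd : DifferentiableOn ℂ Nf (ball 0 1) := hud.fun_add d1
  have hHd : DifferentiableOn ℂ (dslope Nf 0) (ball 0 1) :=
    (differentiableOn_dslope (isOpen_ball.mem_nhds (mem_ball_self one_pos))).2 hNd
  have key := area_theorem hf hinj hf0 (Polynomial.X + Polynomial.C (a 2)) hHd 1 (fun _ => 1)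
    (fun z _ hz0 => by
      have e := sub_smul_dslope Nf 0 z
      have hN0 : Nf 0 = 1 := by simp [hNf, hu, hf1]
      simp only [sub_zero, smul_eq_mul, hN0] at e
      rw [show Nf z = u z + a 2 * z from rfl] at e
      simp only [hu] at e
      rw [Finset.Icc_self, sum_singleton, pow_one, one_mul, Polynomial.eval_add, Polynomial.eval_X,
        Polynomial.eval_C, hfq z, mul_inv]
      field_simp at e ⊢
      linear_combination (-1 : ℂ) * e) 4
  have hN : ∀ n, tc (dslope Nf 0) (n + 1) = tc u (n + 2) := fun n => by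
    rw [tc_dslope hNd, hNf, tc_add hud d1, tc_const_mul, tc_id, if_neg (by omega), mul_zero,
      add_zero]
  simp only [sum_range_succ, sum_range_zero, hN, u2, u3, u4, normSq_neg, Finset.Icc_self,
    sum_singleton, map_one] at key
  push_cast at key
  linarith

end

end Vale.Agent.P142.Area
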