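import Vale.Agent.P142.Area.Grunsky

/-!
Bieberbach's bound for the second coefficient and the lower growth bound.
-/

open Complex Set Metric Finset Filter Topology

namespace Vale.Agent.P142.Area

noncomputable section

/-- A logarithm of a holomorphic function without zeros on the disk. -/
theorem exists_log {q : ℂ → ℂ} (hq : DifferentiableOn ℂ q (ball 0 1))
    (h0 : ∀ z ∈ ball (0 : ℂ) 1, q z ≠ 0) (hq1 : q 0 = 1) :
    ∃ L : ℂ → ℂ, DifferentiableOn ℂ L (ball 0 1) ∧ L 0 = 0 ∧
      ∀ z ∈ ball (0 : ℂ) 1, exp (L z) = q z := by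
  have hd : DifferentiableOn ℂ (fun z => deriv q z / q z) (ball 0 1) :=
    (hq.deriv isOpen_ball).div hq h0
  obtain ⟨L, hL0, hL⟩ := hd.isExactOn_ball.with_val_at 0 0
  have hLd : DifferentiableOn ℂ L (ball 0 1) := fun z hz =>
    (hL z hz).differentiableAt.differentiableWithinAt
  refine ⟨L, hLd, hL0, ?_⟩
  set h : ℂ → ℂ := fun z => exp (-(L z)) * q z with hh
  have hder : ∀ z ∈ ball (0 : ℂ) 1, HasDerivAt h 0 z := fun z hz => by
    have h1 := (hL z hz).neg.cexp
    have h2 := (hq.differentiableAt (isOpen_ball.mem_nhds hz)).hasDerivAt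
    refine (h1.fun_mul h2).congr_deriv ?_
    have := h0 z hz
    rw [Pi.neg_apply]
    field_simp
    ring
  have hdd : DifferentiableOn ℂ h (ball 0 1) := fun z hz =>
    (hder z hz).differentiableAt.differentiableWithinAt
  intro z hz
  have hc := isOpen_ball.is_const_of_deriv_eq_zero (convex_ball (0 : ℂ) 1).isPreconnected hdd
    (fun w hw => (hder w hw).deriv) hz (mem_ball_self one_pos)
  simp only [hh, hL0, neg_zero, exp_zero, hq1, mul_one, exp_neg] at hc
  have he := exp_ne_zero (L z)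
  field_simp at hc
  exact hc.symm

theorem dslope_univalent {f : ℂ → ℂ} (hf : DifferentiableOn ℂ f (ball 0 1))
    (hinj : InjOn f (ball 0 1)) (hf0 : f 0 = 0) (hf1 : deriv f 0 = 1) :
    DifferentiableOn ℂ (dslope f 0) (ball 0 1) ∧ dslope f 0 0 = 1 ∧
      (∀ z : ℂ, f z = z * dslope f 0 z) ∧ ∀ z ∈ ball (0 : ℂ) 1, dslope f 0 z ≠ 0 := by
  have hfq : ∀ z : ℂ, f z = z * dslope f 0 z := fun z => by
    have := sub_smul_dslope f 0 z
    simp only [sub_zero, smul_eq_mul, hf0] at this
    exact this.symm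
  refine ⟨(differentiableOn_dslope (isOpen_ball.mem_nhds (mem_ball_self one_pos))).2 hf,
    by rw [dslope_same, hf1], hfq, fun z hz h => ?_⟩
  rcases eq_or_ne z 0 with rfl | hz0
  · rw [dslope_same, hf1] at h; exact one_ne_zero h
  · exact hz0 (hinj hz (mem_ball_self one_pos) (by rw [hfq z, h, mul_zero, hf0]))

/-- Bieberbach: the second coefficient has modulus at most two. -/
theorem bieberbach {f : ℂ → ℂ} (hf : DifferentiableOn ℂ f (ball 0 1))
    (hinj : InjOn f (ball 0 1)) (hf0 : f 0 = 0) (hf1 : deriv f 0 = 1) : ‖tc f 2‖ ≤ 2 := by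
  obtain ⟨hqd, hq1, hfq, hq0⟩ := dslope_univalent hf hinj hf0 hf1
  obtain ⟨L, hLd, hL0, hL⟩ := exists_log hqd hq0 hq1
  have hsq : ∀ z ∈ ball (0 : ℂ) 1, z ^ 2 ∈ ball (0 : ℂ) 1 := fun z hz => by
    rw [mem_ball_zero_iff] at hz ⊢
    rw [norm_pow]
    exact pow_lt_one₀ (norm_nonneg z) hz two_ne_zero
  set s : ℂ → ℂ := fun w => exp (L w / 2) with hs
  have hsd : DifferentiableOn ℂ s (ball 0 1) := (hLd.div_const 2).cexp
  have hs2 : ∀ w ∈ ball (0 : ℂ) 1, s w * s w = dslope f 0 w := fun w hw => by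
    rw [hs, ← exp_add, ← hL w hw]; congr 1; ring
  set h : ℂ → ℂ := fun z => z * s (z ^ 2) with hh
  have hsqd : DifferentiableOn ℂ (fun z => s (z ^ 2)) (ball 0 1) :=
    hsd.comp (differentiable_fun_id.differentiableOn.pow 2) hsq
  have hhd : DifferentiableOn ℂ h (ball 0 1) := differentiable_fun_id.differentiableOn.mul hsqd
  have hh0 : h 0 = 0 := by simp [hh]
  have hf2 : ∀ z ∈ ball (0 : ℂ) 1, h z * h z = f (z ^ 2) := fun z hz => by
    rw [hh, hfq (z ^ 2), ← hs2 _ (hsq z hz)]; ring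
  have hhi : InjOn h (ball 0 1) := by
    intro x hx y hy hxy
    have e : x ^ 2 = y ^ 2 := hinj (hsq x hx) (hsq y hy) (by rw [← hf2 x hx, ← hf2 y hy, hxy])
    rcases sq_eq_sq_iff_eq_or_eq_neg.1 e with h1 | h1
    · exact h1
    · subst h1
      simp only [hh, neg_sq, neg_mul] at hxy
      have h2 : y * s (y ^ 2) = 0 := by linear_combination (-1 / 2 : ℂ) * hxy
      rcases mul_eq_zero.1 h2 with h3 | h3
      · simp [h3]
      · exact absurd h3 (exp_ne_zero _)
  set si : ℂ → ℂ := fun w => (s w)⁻¹ with hsi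
  have hsid : DifferentiableOn ℂ si (ball 0 1) := hsd.inv fun w _ => exp_ne_zero _
  have hsi0 : si 0 = 1 := by simp [hsi, hs, hL0]
  have hwd : DifferentiableOn ℂ (dslope si 0) (ball 0 1) :=
    (differentiableOn_dslope (isOpen_ball.mem_nhds (mem_ball_self one_pos))).2 hsid
  set H : ℂ → ℂ := fun z => z * dslope si 0 (z ^ 2) with hH
  have hwsq : DifferentiableOn ℂ (fun z => dslope si 0 (z ^ 2)) (ball 0 1) :=
    hwd.comp (differentiable_fun_id.differentiableOn.pow 2) hsq
  have hHd : DifferentiableOn ℂ H (ball 0 1) := differentiable_fun_id.differentiableOn.mul hwsq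
  have key := area_theorem hhd hhi hh0 Polynomial.X hHd 1 (fun _ => 1) (fun z _ hz0 => by
    have e := sub_smul_dslope si 0 (z ^ 2)
    simp only [sub_zero, smul_eq_mul, hsi0] at e
    rw [Polynomial.eval_X, Finset.Icc_self, sum_singleton, pow_one, one_mul]
    simp only [hh, hH, mul_inv]
    rw [show (s (z ^ 2))⁻¹ = si (z ^ 2) from rfl]
    field_simp
    linear_combination (-1 : ℂ) * e) 2
  have e1 : tc H 1 = dslope si 0 0 := by
    simp only [hH]
    rw [tc_mul differentiable_fun_id.differentiableOn hwsq]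
    simp [sum_range_succ, tc_id, tc, iteratedDeriv_zero]
  have e2 : tc si 1 = dslope si 0 0 := by
    rw [← show 0 + 1 = 1 from rfl, ← tc_dslope hsid]; simp [tc, iteratedDeriv_zero]
  have hq1' : tc (dslope f 0) 1 = tc f 2 := tc_dslope hf 1
  have hss : tc (dslope f 0) 1 = 2 * tc s 1 := by
    rw [tc_congr (G := fun w => s w * s w) (fun w hw => (hs2 w hw).symm), tc_mul hsd hsd]
    have : tc s 0 = 1 := by simp [tc, iteratedDeriv_zero, hs, hL0]
    simp [sum_range_succ, this]; ring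
  have hsi1 : tc si 1 = -tc s 1 := by
    have h1 : tc (fun w => s w * si w) 1 = 0 := by
      rw [tc_congr (G := fun _ => (1 : ℂ)) (fun w _ => mul_inv_cancel₀ (exp_ne_zero _)), tc_const]
      simp
    rw [tc_mul hsd hsid] at h1
    have a0 : tc s 0 = 1 := by simp [tc, iteratedDeriv_zero, hs, hL0]
    have b0 : tc si 0 = 1 := by simp [tc, iteratedDeriv_zero, hsi0]
    simp [sum_range_succ, a0, b0] at h1
    linear_combination h1
  have hval : tc H 1 = -(tc f 2 / 2) := by
    rw [e1, ← e2, hsi1, ← hq1', hss]; ring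
  simp [sum_range_succ, hval, normSq_eq_norm_sq] at key
  rw [abs_le] at key
  linarith [key.2]

/-- An omitted value of a normalised univalent function has modulus at least a quarter. -/
theorem quarter {f : ℂ → ℂ} (hf : DifferentiableOn ℂ f (ball 0 1))
    (hinj : InjOn f (ball 0 1)) (hf0 : f 0 = 0) (hf1 : deriv f 0 = 1) {w : ℂ}
    (hw : ∀ z ∈ ball (0 : ℂ) 1, f z ≠ w) : 1 / 4 ≤ ‖w‖ := by
  have hw0 : w ≠ 0 := fun h => hw 0 (mem_ball_self one_pos) (hf0.trans h.symm)
  set F : ℂ → ℂ := fun z => w * f z / (w - f z) with hF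
  have hne : ∀ z ∈ ball (0 : ℂ) 1, w - f z ≠ 0 := fun z hz h => hw z hz (sub_eq_zero.1 h).symm
  have hFd : DifferentiableOn ℂ F (ball 0 1) :=
    ((differentiableOn_const w).mul hf).div ((differentiableOn_const w).sub hf) hne
  have hFi : InjOn F (ball 0 1) := by
    intro x hx y hy h
    simp only [hF] at h
    rw [div_eq_div_iff (hne x hx) (hne y hy)] at h
    refine hinj hx hy (mul_left_cancel₀ (mul_ne_zero hw0 hw0) ?_)
    linear_combination h
  have hF0 : F 0 = 0 := by simp [hF, hf0]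
  have hfd := (hf.differentiableAt (isOpen_ball.mem_nhds (mem_ball_self one_pos))).hasDerivAt
  rw [hf1] at hfd
  have hF1 : deriv F 0 = 1 := by
    refine (((hfd.const_mul w).fun_div (hfd.const_sub w)
      (hne 0 (mem_ball_self one_pos))).congr_deriv ?_).deriv
    rw [hf0]
    field_simp
    ring
  have b1 := bieberbach hf hinj hf0 hf1
  have b2 := bieberbach hFd hFi hF0 hF1
  have hrel : tc F 2 = tc f 2 + w⁻¹ := by
    have hwf : DifferentiableOn ℂ (fun z => w - f z) (ball 0 1) :=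
      (differentiableOn_const w).sub hf
    have h1 : tc (fun z => F z * (w - f z)) 2 = w * tc f 2 := by
      rw [tc_congr (G := fun z => w * f z) (fun z hz => by
        simp only [hF]; rw [div_mul_cancel₀ _ (hne z hz)]), tc_const_mul]
    have hwfn : ∀ n, tc (fun z => w - f z) n = (if n = 0 then w else 0) - tc f n := fun n => by
      rw [tc_congr (G := fun z => w + (-1) * f z) (fun z _ => by ring),
        tc_add (differentiableOn_const w) ((differentiableOn_const _).fun_mul hf), tc_const,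
        tc_const_mul]
      ring
    have a0 : tc f 0 = 0 := by simp [tc, iteratedDeriv_zero, hf0]
    have a1 : tc f 1 = 1 := by simp [tc, iteratedDeriv_one, hf1]
    have A0 : tc F 0 = 0 := by simp [tc, iteratedDeriv_zero, hF0]
    have A1 : tc F 1 = 1 := by simp [tc, iteratedDeriv_one, hF1]
    rw [tc_mul hFd hwf] at h1
    simp [sum_range_succ, hwfn, a0, a1, A0, A1] at h1
    field_simp
    linear_combination h1
  have h4 : ‖w⁻¹‖ ≤ 4 := by
    calc ‖w⁻¹‖ = ‖tc F 2 - tc f 2‖ := by rw [hrel, add_sub_cancel_left]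
      _ ≤ _ := (norm_sub_le _ _).trans (by linarith)
  rw [norm_inv] at h4
  have := norm_pos_iff.2 hw0
  rw [div_le_iff₀ (by norm_num : (0 : ℝ) < 4)]
  rw [inv_le_iff_one_le_mul₀ this] at h4
  linarith

/-- The lower growth bound. -/
theorem norm_ge_quarter {f : ℂ → ℂ} (hf : DifferentiableOn ℂ f (ball 0 1))
    (hinj : InjOn f (ball 0 1)) (hf0 : f 0 = 0) (hf1 : deriv f 0 = 1) {z₀ : ℂ}
    (hz₀ : z₀ ∈ ball (0 : ℂ) 1) : ‖z₀‖ / 4 ≤ ‖f z₀‖ := by
  rcases eq_or_ne z₀ 0 with rfl | hne
  · simp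
  set r : ℝ := ‖z₀‖ with hr
  have hr0 : 0 < r := norm_pos_iff.2 hne
  have hr1 : r < 1 := mem_ball_zero_iff.1 hz₀
  have hrC : (r : ℂ) ≠ 0 := ofReal_ne_zero.2 hr0.ne'
  have hin : ∀ z ∈ ball (0 : ℂ) 1, (r : ℂ) * z ∈ ball (0 : ℂ) 1 ∧ ‖(r : ℂ) * z‖ < r := fun z hz => by
    rw [mem_ball_zero_iff] at hz ⊢
    have h : ‖(r : ℂ) * z‖ < r := by
      rw [norm_mul, Complex.norm_real, Real.norm_eq_abs, abs_of_pos hr0]
      exact mul_lt_of_lt_one_right hr0 hz
    exact ⟨h.trans hr1, h⟩
  set F : ℂ → ℂ := fun z => f ((r : ℂ) * z) / r with hF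
  have hFd : DifferentiableOn ℂ F (ball 0 1) :=
    (hf.comp ((differentiableOn_const _).mul differentiable_fun_id.differentiableOn)
      fun z hz => (hin z hz).1).div_const _
  have hFi : InjOn F (ball 0 1) := fun x hx y hy h =>
    mul_left_cancel₀ hrC (hinj (hin x hx).1 (hin y hy).1 ((div_left_inj' hrC).1 h))
  have hF0 : F 0 = 0 := by simp [hF, hf0]
  have hF1 : deriv F 0 = 1 := by
    have h1 : HasDerivAt f 1 ((r : ℂ) * 0) := by
      rw [mul_zero, ← hf1]
      exact (hf.differentiableAt (isOpen_ball.mem_nhds (mem_ball_self one_pos))).hasDerivAt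
    have h2 := ((h1.comp 0 ((hasDerivAt_id (0 : ℂ)).const_mul (r : ℂ))).div_const (r : ℂ))
    exact (h2.congr_deriv (by field_simp)).deriv
  have h := quarter hFd hFi hF0 hF1 (w := f z₀ / r) fun z hz he => by
    have e := hinj (hin z hz).1 hz₀ ((div_left_inj' hrC).1 he)
    exact absurd (e ▸ (hin z hz).2) (lt_irrefl _)
  rw [norm_div, Complex.norm_real, Real.norm_eq_abs, abs_of_pos hr0, le_div_iff₀ hr0] at h
  linarith

end

end Vale.Agent.P142.Area
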