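import Mathlib

/-!
The area theorem without curves: the pull back of a compactly supported one form to an injective
holomorphic image of a logarithmic rectangle.
-/

open Complex MeasureTheory Set Metric Function ComplexConjugate

namespace Vale.Agent.P142.Area

noncomputable section

/-- Twice `I` times the antiholomorphic derivative. -/
def dbar (a : ℂ → ℂ) (w : ℂ) : ℂ := I • fderiv ℝ a w 1 - fderiv ℝ a w I

/-- The logarithmic rectangle. -/
def strip (L₀ L₁ : ℝ) : Set ℂ := Icc L₀ L₁ ×ℂ Ioc (-Real.pi) Real.pi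

theorem measurableSet_strip (L₀ L₁ : ℝ) : MeasurableSet (strip L₀ L₁) :=
  (measurableSet_Icc.preimage measurable_re).inter (measurableSet_Ioc.preimage measurable_im)

/-- Iterated integral over a rectangle as a set integral. -/
theorem rect_integral {f : ℂ → ℂ} {a b c d : ℝ} (hab : a ≤ b) (hcd : c ≤ d)
    (hf : IntegrableOn f (Icc a b ×ℂ Icc c d)) :
    (∫ x : ℝ in a..b, ∫ y : ℝ in c..d, f (x + y * I)) = ∫ z in Icc a b ×ℂ Ioc c d, f z := by
  have he : MeasurableEmbedding measurableEquivRealProd := measurableEquivRealProd.measurableEmbedding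
  have hpre : measurableEquivRealProd ⁻¹' (Icc a b ×ˢ Ioc c d) = Icc a b ×ℂ Ioc c d := by
    ext z; simp [mem_reProdIm, measurableEquivRealProd_apply] <;> tauto
  have hpre' : measurableEquivRealProd ⁻¹' (Icc a b ×ˢ Icc c d) = Icc a b ×ℂ Icc c d := by
    ext z; simp [mem_reProdIm, measurableEquivRealProd_apply] <;> tauto
  have hval : ∀ z : ℂ, f z = f ((measurableEquivRealProd z).1 + (measurableEquivRealProd z).2 * I) :=
    fun z => by simp [measurableEquivRealProd_apply, re_add_im]
  have hint : IntegrableOn (fun p : ℝ × ℝ => f (p.1 + p.2 * I)) (Icc a b ×ˢ Icc c d) := by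
    rw [← volume_preserving_equiv_real_prod.integrableOn_comp_preimage he, hpre']
    exact hf.congr_fun (fun z _ => hval z)
      ((measurableSet_Icc.preimage measurable_re).inter (measurableSet_Icc.preimage measurable_im))
  have hint' := hint.mono_set (prod_mono (Subset.refl (Icc a b)) (Ioc_subset_Icc_self (a := c) (b := d)))
  rw [← hpre, setIntegral_congr_fun (he.measurable (measurableSet_Icc.prod measurableSet_Ioc))
    (fun z _ => hval z), volume_preserving_equiv_real_prod.setIntegral_preimage_emb he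
    (fun p : ℝ × ℝ => f (p.1 + p.2 * I)), Measure.volume_eq_prod,
    setIntegral_prod _ (by rwa [← Measure.volume_eq_prod]),
    intervalIntegral.integral_of_le hab, ← integral_Icc_eq_integral_Ioc]
  exact setIntegral_congr_fun measurableSet_Icc fun x _ => intervalIntegral.integral_of_le hcd

/-- The boundary formula. -/
theorem stokes_rect {g : ℂ → ℂ} {g' : ℂ → ℂ →L[ℝ] ℂ} {a b c d : ℝ} (hab : a ≤ b) (hcd : c ≤ d)
    (hg : ∀ z ∈ Icc a b ×ℂ Icc c d, HasFDerivAt g (g' z) z)
    (hi : ContinuousOn (fun z => I • g' z 1 - g' z I) (Icc a b ×ℂ Icc c d)) :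
    (∫ x : ℝ in a..b, g (x + c * I)) - (∫ x : ℝ in a..b, g (x + d * I)) +
      I • (∫ y : ℝ in c..d, g (b + y * I)) - I • (∫ y : ℝ in c..d, g (a + y * I)) =
      ∫ z in Icc a b ×ℂ Ioc c d, I • g' z 1 - g' z I := by
  have hK : IsCompact (Icc a b ×ℂ Icc c d) := isCompact_Icc.reProdIm isCompact_Icc
  rw [← rect_integral hab hcd (hi.integrableOn_compact hK)]
  have h := integral_boundary_rect_of_continuousOn_of_hasFDerivAt_real g g' ⟨a, c⟩ ⟨b, d⟩
  simp only [uIcc_of_le hab, uIcc_of_le hcd, min_eq_left hab, max_eq_right hab, min_eq_left hcd,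
    max_eq_right hcd] at h
  exact h (fun z hz => (hg z hz).continuousAt.continuousWithinAt)
    (fun z hz => hg z ⟨Ioo_subset_Icc_self hz.1, Ioo_subset_Icc_self hz.2⟩)
    (hi.integrableOn_compact hK)

theorem continuous_dbar {a : ℂ → ℂ} (ha : ContDiff ℝ 1 a) : Continuous (dbar a) := by
  have := ha.continuous_fderiv one_ne_zero
  exact ((this.clm_apply continuous_const).const_smul I).sub (this.clm_apply continuous_const)

theorem dbar_eq_zero {a : ℂ → ℂ} {w : ℂ} {R : ℝ} (h : ∀ v, R < ‖v‖ → a v = 0) (hw : R < ‖w‖) :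
    dbar a w = 0 := by
  have he : a =ᶠ[nhds w] fun _ => (0 : ℂ) :=
    Filter.eventually_of_mem ((isOpen_lt continuous_const continuous_norm).mem_nhds hw) h
  simp [dbar, he.fderiv_eq]

/-- The integral of `dbar` of a compactly supported function vanishes. -/
theorem integral_dbar_eq_zero {a : ℂ → ℂ} (ha : ContDiff ℝ 1 a) {R : ℝ}
    (h : ∀ v, R < ‖v‖ → a v = 0) : ∫ w, dbar a w = 0 := by
  set L := |R| + 1 with hL
  have hLR : R < L := by rw [hL]; linarith [le_abs_self R]
  have hL0 : 0 ≤ L := by positivity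
  have hsq := stokes_rect (g := a) (g' := fderiv ℝ a) (a := -L) (b := L) (c := -L) (d := L)
    (by linarith) (by linarith) (fun z _ => (ha.differentiable one_ne_zero z).hasFDerivAt)
    (continuous_dbar ha).continuousOn
  have z1 : ∀ x : ℝ, ∀ s : ℝ, |s| = L → a (x + s * I) = 0 ∧ a (s + x * I) = 0 := fun x s hs =>
    ⟨h _ (hLR.trans_le (hs ▸ by simpa using abs_im_le_norm (x + s * I : ℂ))),
      h _ (hLR.trans_le (hs ▸ by simpa using abs_re_le_norm (s + x * I : ℂ)))⟩
  have hm : |(-L)| = L := by rw [abs_neg, abs_of_nonneg hL0]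
  rw [intervalIntegral.integral_congr (g := fun _ => (0 : ℂ)) (fun x _ => (z1 x _ hm).1),
    intervalIntegral.integral_congr (g := fun _ => (0 : ℂ))
      (fun x _ => (z1 x _ (abs_of_nonneg hL0)).1),
    intervalIntegral.integral_congr (g := fun _ => (0 : ℂ))
      (fun x _ => (z1 x _ (abs_of_nonneg hL0)).2),
    intervalIntegral.integral_congr (g := fun _ => (0 : ℂ)) (fun x _ => (z1 x _ hm).2)] at hsq
  simp only [intervalIntegral.integral_zero, smul_zero, sub_self, add_zero] at hsq
  refine (setIntegral_eq_integral_of_forall_compl_eq_zero fun w hw => ?_).symm.trans hsq.symm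
  refine dbar_eq_zero h ?_
  by_contra hc
  refine hw ⟨⟨?_, ?_⟩, ⟨?_, ?_⟩⟩ <;>
    linarith [(abs_le.1 (abs_re_le_norm w)).1, (abs_le.1 (abs_re_le_norm w)).2,
      (abs_le.1 (abs_im_le_norm w)).1, (abs_le.1 (abs_im_le_norm w)).2, not_lt.1 hc]

theorem det_mul_complex (d : ℂ) :
    (d • (1 : ℂ →L[ℝ] ℂ)).det = normSq d := by
  rw [← Algebra.norm_complex_apply, Algebra.norm_apply]
  rfl

/-- The sign of the boundary term: if `F` is injective on a punctured disk around its pole, then
for a compactly supported `a` whose `dbar` has nonnegative imaginary part outside the image of a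
logarithmic rectangle, the boundary integral over the outer circle has nonpositive real part. -/
theorem boundary_re_nonpos {a : ℂ → ℂ} (ha : ContDiff ℝ 1 a) {R : ℝ}
    (hsupp : ∀ v, R < ‖v‖ → a v = 0) {U : Set ℂ} (hU : IsOpen U) {Φ Φ' : ℂ → ℂ}
    (hΦ : ∀ z ∈ U, HasDerivAt Φ (Φ' z) z) (hΦ' : DifferentiableOn ℂ Φ' U) {L₀ L₁ : ℝ}
    (hL : L₀ ≤ L₁) (hsub : Icc L₀ L₁ ×ℂ Icc (-Real.pi) Real.pi ⊆ U)
    (hinj : InjOn Φ (strip L₀ L₁))
    (hper : ∀ x : ℝ, Φ (x + (-Real.pi : ℝ) * I) = Φ (x + Real.pi * I) ∧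
      Φ' (x + (-Real.pi : ℝ) * I) = Φ' (x + Real.pi * I))
    (hleft : ∀ y : ℝ, a (Φ (L₀ + y * I)) = 0)
    (hout : ∀ w ∉ Φ '' strip L₀ L₁, 0 ≤ (dbar a w).im) :
    (∫ y : ℝ in (-Real.pi)..Real.pi, a (Φ (L₁ + y * I)) * Φ' (L₁ + y * I)).re ≤ 0 := by
  have hpi : -Real.pi ≤ Real.pi := by linarith [Real.pi_pos]
  set K := Icc L₀ L₁ ×ℂ Icc (-Real.pi) Real.pi with hK
  have hstrip : strip L₀ L₁ ⊆ K := fun z hz => ⟨hz.1, Ioc_subset_Icc_self hz.2⟩
  set g' : ℂ → ℂ →L[ℝ] ℂ := fun z =>
    Φ' z • ((fderiv ℝ a (Φ z)).comp (Φ' z • (1 : ℂ →L[ℝ] ℂ))) +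
      a (Φ z) • (deriv Φ' z • (1 : ℂ →L[ℝ] ℂ)) with hg'
  have hg : ∀ z ∈ K, HasFDerivAt (fun z => a (Φ z) * Φ' z) (g' z) z := by
    intro z hz
    have h1 : HasFDerivAt Φ (Φ' z • (1 : ℂ →L[ℝ] ℂ)) z :=
      ((hΦ z (hsub hz)).complexToReal_fderiv)
    have h2 : HasFDerivAt Φ' (deriv Φ' z • (1 : ℂ →L[ℝ] ℂ)) z :=
      ((hΦ'.differentiableAt (hU.mem_nhds (hsub hz))).hasDerivAt.complexToReal_fderiv)
    refine (((ha.differentiable one_ne_zero _).hasFDerivAt.comp z h1).mul h2).congr_fderiv ?_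
    simp only [hg', Function.comp]
    rw [add_comm]
  have hform : ∀ z, I • g' z 1 - g' z I = (normSq (Φ' z) : ℂ) * dbar a (Φ z) := by
    intro z
    have hlin : ∀ p : ℂ, fderiv ℝ a (Φ z) p =
        (p.re : ℂ) * fderiv ℝ a (Φ z) 1 + (p.im : ℂ) * fderiv ℝ a (Φ z) I := by
      intro p
      have hp : p = p.re • (1 : ℂ) + p.im • I := by simp [re_add_im]
      conv_lhs => rw [hp]
      rw [map_add, map_smul, map_smul, real_smul, real_smul]
    have e1 := hlin (Φ' z)
    have e2 := hlin (Φ' z * I)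
    simp only [mul_re, mul_im, I_re, I_im, mul_zero, mul_one, zero_sub, add_zero, ofReal_neg] at e2
    simp [hg', dbar]
    rw [e1, e2, normSq_eq_conj_mul_self]
    have hc : conj (Φ' z) = (Φ' z).re - (Φ' z).im * I := by
      refine Complex.ext ?_ ?_ <;> simp
    rw [hc]
    linear_combination ((Φ' z) * ((Φ' z).im : ℂ) * fderiv ℝ a (Φ z) 1) * (Complex.I_sq)
  have hΦc : ContinuousOn Φ K := fun z hz => (hΦ z (hsub hz)).continuousAt.continuousWithinAt
  have hΦ'c : ContinuousOn Φ' K := hΦ'.continuousOn.mono hsub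
  have hi : ContinuousOn (fun z => I • g' z 1 - g' z I) K := by
    simp only [hform]
    exact ((continuous_ofReal.comp continuous_normSq).comp_continuousOn hΦ'c).mul
      ((continuous_dbar ha).comp_continuousOn hΦc)
  have hst := stokes_rect hL hpi hg hi
  rw [intervalIntegral.integral_congr (g := fun x : ℝ => a (Φ (x + Real.pi * I)) *
      Φ' (x + Real.pi * I)) (fun x _ => by simp only [(hper x).1, (hper x).2]),
    sub_self, zero_add, intervalIntegral.integral_congr
      (f := fun y : ℝ => a (Φ (L₀ + y * I)) * Φ' (L₀ + y * I)) (g := fun _ => (0 : ℂ))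
      (fun y _ => by simp only [hleft y, zero_mul]),
    intervalIntegral.integral_zero, smul_zero, sub_zero] at hst
  have hcv := integral_image_eq_integral_abs_det_fderiv_smul volume (measurableSet_strip L₀ L₁)
    (fun z hz => ((hΦ z (hsub (hstrip hz))).complexToReal_fderiv).hasFDerivWithinAt) hinj (dbar a)
  simp only [det_mul_complex, abs_of_nonneg (normSq_nonneg _), real_smul] at hcv
  simp only [hform] at hst
  rw [← strip, ← hcv] at hst
  set s := Φ '' strip L₀ L₁ with hs
  have hsm : MeasurableSet s := measurable_image_of_fderivWithin (measurableSet_strip L₀ L₁)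
    (fun z hz => ((hΦ z (hsub (hstrip hz))).complexToReal_fderiv).hasFDerivWithinAt) hinj
  have hint : Integrable (dbar a) :=
    (continuous_dbar ha).integrable_of_hasCompactSupport
      (HasCompactSupport.intro (isCompact_closedBall 0 R) fun w hw =>
        dbar_eq_zero hsupp (not_le.1 fun h => hw (mem_closedBall_zero_iff.2 h)))
  have htot := integral_add_compl hsm hint
  rw [integral_dbar_eq_zero ha hsupp] at htot
  have him : 0 ≤ (∫ w in sᶜ, dbar a w).im := by
    change 0 ≤ imCLM (∫ w in sᶜ, dbar a w)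
    rw [← ContinuousLinearMap.integral_comp_comm _ hint.integrableOn]
    exact setIntegral_nonneg hsm.compl fun w hw => hout w hw
  have h1 := congrArg Complex.im hst
  have h2 := congrArg Complex.im htot
  simp only [smul_eq_mul, mul_im, I_re, I_im, zero_mul, one_mul, zero_add] at h1
  simp only [add_im, zero_im] at h2
  linarith

end

end Vale.Agent.P142.Area
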