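import Vale.Agent.P142.Area.Stokes
import Vale.Agent.P142.Area.Fourier

/-!
The area theorem for a polynomial in the reciprocal of a univalent function on the unit disk.
-/

open Complex MeasureTheory Set Metric Finset ComplexConjugate Filter Topology

namespace Vale.Agent.P142.Area

noncomputable section

/-- The Taylor coefficient at the origin. -/
def tc (H : ℂ → ℂ) (n : ℕ) : ℂ := (n.factorial : ℂ)⁻¹ * iteratedDeriv n H 0

theorem hasSum_tc {H : ℂ → ℂ} (hH : DifferentiableOn ℂ H (ball 0 1)) {z : ℂ}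
    (hz : z ∈ ball (0 : ℂ) 1) : HasSum (fun n => tc H n * z ^ n) (H z) := by
  have h := Complex.hasSum_taylorSeries_on_ball (c := (0 : ℂ)) (r := 1) (f := H)
    hH hz
  refine h.congr_fun fun n => ?_
  simp [tc]; ring

theorem summable_tc {H : ℂ → ℂ} (hH : DifferentiableOn ℂ H (ball 0 1)) {r : ℝ} (h0 : 0 ≤ r)
    (h1 : r < 1) : Summable fun n => ‖tc H n * (r : ℂ) ^ n‖ := by
  obtain ⟨s, hrs, hs1⟩ := exists_between h1
  have hs0 : 0 < s := lt_of_le_of_lt h0 hrs
  have hz : ((s : ℂ)) ∈ ball (0 : ℂ) 1 := by simpa [abs_of_pos hs0] using hs1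
  have ht : Tendsto (fun n => tc H n * (s : ℂ) ^ n) atTop (𝓝 0) :=
    (hasSum_tc hH hz).summable.tendsto_atTop_zero
  obtain ⟨C, hC⟩ := (ht.norm.isBoundedUnder_le).bddAbove_range
  refine Summable.of_nonneg_of_le (fun n => norm_nonneg _) (fun n => ?_)
    ((summable_geometric_of_lt_one (by positivity) ((div_lt_one hs0).2 hrs)).mul_left C)
  have hb : ‖tc H n * (s : ℂ) ^ n‖ ≤ C := hC ⟨n, rfl⟩
  rw [norm_mul, norm_pow, Complex.norm_real, Real.norm_eq_abs, abs_of_pos hs0] at hb
  rw [norm_mul, norm_pow, Complex.norm_real, Real.norm_eq_abs, abs_of_nonneg h0, div_pow]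
  calc ‖tc H n‖ * r ^ n = (‖tc H n‖ * s ^ n) * (r ^ n / s ^ n) := by field_simp
    _ ≤ C * (r ^ n / s ^ n) := mul_le_mul_of_nonneg_right hb (by positivity)

theorem tc_deriv (H : ℂ → ℂ) (n : ℕ) : tc (deriv H) n = (n + 1 : ℕ) * tc H (n + 1) := by
  have h : ((n + 1 : ℕ) : ℂ) ≠ 0 := Nat.cast_ne_zero.2 n.succ_ne_zero
  rw [tc, tc, ← iteratedDeriv_succ', Nat.factorial_succ, Nat.cast_mul]
  field_simp

theorem hasSum_tc_deriv {H : ℂ → ℂ} (hH : DifferentiableOn ℂ H (ball 0 1)) {z : ℂ}
    (hz : z ∈ ball (0 : ℂ) 1) : HasSum (fun n : ℕ => (n : ℂ) * tc H n * z ^ n) (z * deriv H z) := by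
  have h := (hasSum_tc (hH.deriv isOpen_ball) hz).mul_left z
  simp only [tc_deriv] at h
  rw [← hasSum_nat_add_iff' 1]
  simp only [sum_range_one, Nat.cast_zero, zero_mul, sub_zero]
  refine h.congr_fun fun n => ?_
  push_cast; ring

theorem dbar_conj_mul {p p' : ℂ → ℂ} {p'' w : ℂ} (hp : HasDerivAt p (p' w) w)
    (hp' : HasDerivAt p' p'' w) :
    dbar (fun v => conj (p v) * p' v) w = 2 * (normSq (p' w) : ℂ) * I := by
  have h1 : HasFDerivAt (fun v => conj (p v))
      ((conjCLE : ℂ →L[ℝ] ℂ).comp (p' w • (1 : ℂ →L[ℝ] ℂ))) w :=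
    (conjCLE : ℂ →L[ℝ] ℂ).hasFDerivAt.comp w hp.complexToReal_fderiv
  rw [dbar, (h1.fun_mul hp'.complexToReal_fderiv).fderiv, normSq_eq_conj_mul_self]
  simp
  ring

/-- The area theorem. -/
theorem area_theorem {f : ℂ → ℂ} (hf : DifferentiableOn ℂ f (ball 0 1))
    (hinj : InjOn f (ball 0 1)) (hf0 : f 0 = 0) (P : Polynomial ℂ) {H : ℂ → ℂ}
    (hH : DifferentiableOn ℂ H (ball 0 1)) (N : ℕ) (c : ℕ → ℂ)
    (heq : ∀ z ∈ ball (0 : ℂ) 1, z ≠ 0 → P.eval (f z)⁻¹ = ∑ n ∈ Finset.Icc 1 N, c n * (z ^ n)⁻¹ + H z)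
    (M : ℕ) :
    ∑ n ∈ range M, (n : ℝ) * normSq (tc H n) ≤ ∑ n ∈ Finset.Icc 1 N, (n : ℝ) * normSq (c n) := by
  have key : ∀ r : ℝ, 0 < r → r < 1 →
      ∑ n ∈ range M, (n : ℝ) * normSq (tc H n) * r ^ (2 * n) ≤
        ∑ n ∈ Finset.Icc 1 N, (n : ℝ) * normSq (c n) / r ^ (2 * n) := by
    intro r hr0 hr1
    have hsub : ∀ z : ℂ, ‖z‖ ≤ r → z ∈ ball (0 : ℂ) 1 := fun z hz =>
      mem_ball_zero_iff.2 (hz.trans_lt hr1)
    have hne : ∀ z ∈ ball (0 : ℂ) 1, z ≠ 0 → f z ≠ 0 := fun z hz hz0 h =>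
      hz0 (hinj hz (mem_ball_self one_pos) (h.trans hf0.symm))
    have hfc : ∀ z ∈ ball (0 : ℂ) 1, ContinuousAt f z := fun z hz =>
      (hf.differentiableAt (isOpen_ball.mem_nhds hz)).continuousAt
    obtain ⟨δ, hδ, hδf⟩ : ∃ δ > 0, ball (0 : ℂ) δ ⊆ f '' ball 0 r := by
      have han : AnalyticOnNhd ℂ f (ball 0 1) := hf.analyticOnNhd isOpen_ball
      rcases han.is_constant_or_isOpen (convex_ball _ _).isPreconnected with ⟨w, hw⟩ | hop
      · have h12 : ((1 / 2 : ℝ) : ℂ) ∈ ball (0 : ℂ) 1 := by simp; norm_num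
        have h := hne _ h12 (by norm_num)
        rw [hw _ h12, ← hw 0 (mem_ball_self one_pos), hf0] at h
        exact absurd rfl h
      · have ho := hop (ball 0 r) (ball_subset_ball hr1.le) isOpen_ball
        exact Metric.isOpen_iff.1 ho 0 ⟨0, mem_ball_self hr0, hf0⟩
    have hcs : ContinuousOn (fun z => (f z)⁻¹) (sphere (0 : ℂ) r) := fun z hz =>
      ((hfc z (hsub z (mem_sphere_zero_iff_norm.1 hz).le)).inv₀ (hne z
        (hsub z (mem_sphere_zero_iff_norm.1 hz).le)
        (fun h => hr0.ne' (by simpa [h] using (mem_sphere_zero_iff_norm.1 hz).symm)))).continuousWithinAt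
    obtain ⟨C, hC⟩ := (isCompact_sphere (0 : ℂ) r).exists_bound_of_continuousOn hcs
    set R := max (C + 1) (2 / δ) with hR
    have hR0 : 0 < R := lt_of_lt_of_le (by positivity) (le_max_right _ _)
    have hRC : C < R := lt_of_lt_of_le (by linarith) (le_max_left _ _)
    have hRδ : 1 / R < δ := by
      rw [div_lt_iff₀ hR0]
      have h := le_max_right (C + 1) (2 / δ)
      rw [← hR, div_le_iff₀ hδ] at h
      linarith
    obtain ⟨ε, hε0, hεr, hεf⟩ : ∃ ε > 0, ε < r ∧ ∀ z : ℂ, ‖z‖ ≤ ε → ‖f z‖ < 1 / (2 * R) := by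
      obtain ⟨e, he, he'⟩ := Metric.continuousAt_iff.1 (hfc 0 (mem_ball_self one_pos)) (1 / (2 * R))
        (by positivity)
      refine ⟨min (e / 2) (r / 2), by positivity, lt_of_le_of_lt (min_le_right _ _) (by linarith),
        fun z hz => ?_⟩
      have := he' (x := z) (by rw [dist_zero_right]; linarith [min_le_left (e / 2) (r / 2)])
      rwa [hf0, dist_zero_right] at this
    -- the cutoff
    let χ : ContDiffBump (0 : ℂ) := ⟨R, 2 * R, hR0, by linarith⟩
    set p : ℂ → ℂ := fun w => P.eval w with hp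
    set p' : ℂ → ℂ := fun w => (Polynomial.derivative P).eval w with hp'
    set a : ℂ → ℂ := fun w => conj (p w) * p' w * (χ w : ℂ) with ha
    have hpC : ∀ Q : Polynomial ℂ, ContDiff ℝ 1 fun w => Q.eval w := fun Q =>
      (Q.differentiable.contDiff (n := 1)).restrict_scalars ℝ
    have haC : ContDiff ℝ 1 a :=
      ((conjCLE.contDiff.comp (hpC P)).mul (hpC _)).mul (ofRealCLM.contDiff.comp χ.contDiff)
    have hsupp : ∀ v, 2 * R < ‖v‖ → a v = 0 := fun v hv => by
      simp only [ha]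
      rw [χ.zero_of_le_dist (by rw [dist_zero_right]; exact hv.le), ofReal_zero, mul_zero]
    -- logarithmic coordinates
    set U : Set ℂ := {ζ | ζ.re < 0} with hU
    have hUo : IsOpen U := isOpen_lt continuous_re continuous_const
    have hexp : ∀ ζ ∈ U, exp ζ ∈ ball (0 : ℂ) 1 := fun ζ hζ => by
      rw [mem_ball_zero_iff, norm_exp]; exact Real.exp_lt_one_iff.2 hζ
    set Φ : ℂ → ℂ := fun ζ => (f (exp ζ))⁻¹ with hΦdef
    set Φ' : ℂ → ℂ := fun ζ => -(deriv f (exp ζ) * exp ζ) / f (exp ζ) ^ 2 with hΦ'def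
    have hΦ : ∀ ζ ∈ U, HasDerivAt Φ (Φ' ζ) ζ := fun ζ hζ => by
      have h1 := (hf.differentiableAt (isOpen_ball.mem_nhds (hexp ζ hζ))).hasDerivAt
      exact (h1.comp ζ (hasDerivAt_exp ζ)).inv (hne _ (hexp ζ hζ) (exp_ne_zero ζ))
    have hΦ'd : DifferentiableOn ℂ Φ' U :=
      ((((hf.deriv isOpen_ball).comp differentiable_exp.differentiableOn hexp).mul
        differentiable_exp.differentiableOn).neg).div
        ((hf.comp differentiable_exp.differentiableOn hexp).pow 2)
        (fun ζ hζ => pow_ne_zero _ (hne _ (hexp ζ hζ) (exp_ne_zero ζ)))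
    set L₀ := Real.log ε
    set L₁ := Real.log r
    have hL : L₀ ≤ L₁ := Real.log_le_log hε0 hεr.le
    have hL1 : L₁ < 0 := Real.log_neg hr0 hr1
    have hKU : Set.Icc L₀ L₁ ×ℂ Set.Icc (-Real.pi) Real.pi ⊆ U := fun ζ hζ =>
      lt_of_le_of_lt (mem_reProdIm.1 hζ).1.2 hL1
    have hinjΦ : InjOn Φ (strip L₀ L₁) := by
      intro x hx y hy hxy
      have h := hinj (hexp x (lt_of_le_of_lt (mem_reProdIm.1 hx).1.2 hL1))
        (hexp y (lt_of_le_of_lt (mem_reProdIm.1 hy).1.2 hL1)) (inv_inj.1 hxy)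
      have hx2 := (mem_reProdIm.1 hx).2; have hy2 := (mem_reProdIm.1 hy).2
      rw [← log_exp hx2.1 hx2.2, ← log_exp hy2.1 hy2.2, h]
    have hper : ∀ x : ℝ, Φ (x + (-Real.pi : ℝ) * I) = Φ (x + Real.pi * I) ∧
        Φ' (x + (-Real.pi : ℝ) * I) = Φ' (x + Real.pi * I) := by
      intro x
      have e : exp ((x : ℂ) + (-Real.pi : ℝ) * I) = exp (x + Real.pi * I) :=
        exp_eq_exp_iff_exists_int.2 ⟨-1, by push_cast; ring⟩
      constructor <;> simp only [hΦdef, hΦ'def, e]
    have hnormexp : ∀ L y : ℝ, ‖exp ((L : ℂ) + y * I)‖ = Real.exp L := fun L y => by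
      simp [norm_exp]
    have hleft : ∀ y : ℝ, a (Φ (L₀ + y * I)) = 0 := by
      intro y
      set z := exp ((L₀ : ℂ) + y * I)
      have hz : ‖z‖ = ε := by rw [hnormexp, Real.exp_log hε0]
      have hz0 : f z ≠ 0 := hne z (hsub z (hz ▸ hεr.le)) (exp_ne_zero _)
      refine hsupp _ ?_
      have h := hεf z hz.le
      rw [lt_div_iff₀ (by positivity)] at h
      simp only [hΦdef, norm_inv]
      rw [← one_div, lt_div_iff₀ (norm_pos_iff.2 hz0)]
      linarith
    have hout : ∀ w ∉ Φ '' strip L₀ L₁, 0 ≤ (dbar a w).im := by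
      intro w hw
      rcases lt_or_ge ‖w‖ R with h | h
      · have he : a =ᶠ[𝓝 w] fun v => conj (p v) * p' v := by
          filter_upwards [isOpen_ball.mem_nhds (mem_ball_zero_iff.2 h)] with v hv
          simp only [ha]
          rw [χ.one_of_mem_closedBall (ball_subset_closedBall hv), ofReal_one, mul_one]
        have hd := dbar_conj_mul (p := p) (p' := p') (P.hasDerivAt w)
          ((Polynomial.derivative P).hasDerivAt w)
        rw [dbar, he.fderiv_eq, ← dbar, hd]
        simp [mul_nonneg, normSq_nonneg]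
      · rcases lt_or_ge (2 * R) ‖w‖ with h2 | h2
        · rw [dbar_eq_zero hsupp h2, zero_im]
        · exfalso
          obtain ⟨z, hz, hzw⟩ : w⁻¹ ∈ f '' ball 0 r := hδf (by
            rw [mem_ball_zero_iff, norm_inv]
            refine lt_of_le_of_lt ?_ hRδ
            rw [one_div]; exact inv_anti₀ hR0 h)
          have hw0 : w ≠ 0 := norm_pos_iff.1 (hR0.trans_le h)
          have hzε : ε < ‖z‖ := by
            by_contra hc
            have h3 := hεf z (not_lt.1 hc)
            rw [hzw, norm_inv, ← one_div, div_lt_div_iff₀ (hR0.trans_le h) (by positivity)] at h3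
            linarith
          have hz0 : z ≠ 0 := norm_pos_iff.1 (hε0.trans hzε)
          refine hw ⟨log z, mem_reProdIm.2 ⟨⟨?_, ?_⟩, ?_⟩, ?_⟩
          · rw [log_re]; exact Real.log_le_log hε0 hzε.le
          · rw [log_re]; exact Real.log_le_log (norm_pos_iff.2 hz0) (mem_ball_zero_iff.1 hz).le
          · rw [log_im]; exact ⟨neg_pi_lt_arg z, arg_le_pi z⟩
          · simp only [hΦdef, exp_log hz0, hzw, inv_inv]
    have hB := boundary_re_nonpos haC hsupp hUo hΦ hΦ'd hL hKU hinjΦ hper hleft hout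
    -- the series on the outer circle
    set u : ℤ → ℂ := fun n => if 0 ≤ n then tc H n.toNat * (r : ℂ) ^ n.toNat
      else if n.natAbs ≤ N then c n.natAbs * ((r : ℂ) ^ n.natAbs)⁻¹ else 0 with hu
    have hu1 : ∀ n : ℕ, u (n : ℤ) = tc H n * (r : ℂ) ^ n := fun n => by simp [hu]
    have hu2 : ∀ n : ℕ, u (-((n : ℤ) + 1)) =
        if n + 1 ≤ N then c (n + 1) * ((r : ℂ) ^ (n + 1))⁻¹ else 0 := fun n => by
      have hn : ¬ (0 : ℤ) ≤ -((n : ℤ) + 1) := by omega
      simp only [hu, if_neg hn, show (-((n : ℤ) + 1)).natAbs = n + 1 by omega]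
    have hrC : ‖(r : ℂ)‖ = r := by simp [abs_of_pos hr0]
    have hfin : ∀ q : ℕ → ℂ, HasSum (fun n : ℕ => if n + 1 ≤ N then q (n + 1) else 0)
        (∑ n ∈ Finset.Icc 1 N, q n) := by
      intro q
      have h := hasSum_sum_of_ne_finset_zero (L := SummationFilter.unconditional ℕ)
        (f := fun n : ℕ => if n + 1 ≤ N then q (n + 1) else 0)
        (s := range N) fun n hn => if_neg (by simpa using hn)
      convert h using 1
      rw [range_eq_Ico, ← Finset.Ico_add_one_right_eq_Icc, ← sum_Ico_add' q 0 N 1]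
      exact sum_congr rfl fun n hn => (if_pos (Finset.mem_Ico.1 hn).2).symm
    set v : ℤ → ℂ := fun n => (n : ℂ) * u n with hv
    have hus : Summable fun n => ‖u n‖ := by
      refine Summable.of_nat_of_neg_add_one ?_ ?_
      · simp only [hu1]; exact summable_tc hH hr0.le hr1
      · refine summable_of_ne_finset_zero (s := range N) fun n hn => ?_
        rw [hu2, if_neg (by simpa using hn), norm_zero]
    have hvs : Summable fun n => ‖v n‖ := by
      refine Summable.of_nat_of_neg_add_one ?_ ?_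
      · simp only [hv, hu1, Int.cast_natCast]
        have h := summable_tc (hH.deriv isOpen_ball) hr0.le hr1
        refine (summable_nat_add_iff 1).1 ((h.mul_left r).congr fun n => ?_)
        rw [tc_deriv]
        simp only [norm_mul, norm_pow, hrC]
        ring
      · refine summable_of_ne_finset_zero (s := range N) fun n hn => ?_
        simp only [hv]
        rw [hu2, if_neg (by simpa using hn), mul_zero, norm_zero]
    have hcirc : ∀ y : ℝ, exp ((L₁ : ℂ) + y * I) = (r : ℂ) * mode 1 y := fun y => by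
      rw [exp_add, ← ofReal_exp, Real.exp_log hr0, mode]; simp
    have hpowp : ∀ (n : ℕ) (y : ℝ), mode (n : ℤ) y = mode 1 y ^ n := fun n y => by
      rw [mode, mode, ← exp_nat_mul]; simp
    have hpown : ∀ (n : ℕ) (y : ℝ), mode (-((n : ℤ) + 1)) y = (mode 1 y ^ (n + 1))⁻¹ := fun n y => by
      rw [mode, mode, ← exp_nat_mul, ← exp_neg]; congr 1; push_cast; ring
    set zc : ℝ → ℂ := fun y => exp ((L₁ : ℂ) + y * I) with hzc
    have hzb : ∀ y, zc y ∈ ball (0 : ℂ) 1 := fun y =>
      hsub _ (by rw [hzc, hnormexp, Real.exp_log hr0])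
    set h : ℂ → ℂ := fun z => ∑ n ∈ Finset.Icc 1 N, c n * (z ^ n)⁻¹ + H z with hh
    set k : ℂ → ℂ := fun z =>
      ∑ n ∈ Finset.Icc 1 N, (-(n : ℂ)) * (c n * (z ^ n)⁻¹) + z * deriv H z with hk
    have hUs : ∀ y, HasSum (fun n => u n * mode n y) (h (zc y)) := by
      intro y
      simp only [hh]
      rw [add_comm]
      refine HasSum.of_nat_of_neg_add_one ?_ ?_
      · convert hasSum_tc hH (hzb y) using 1
        funext n
        rw [hu1, hpowp, hzc]; simp only [hcirc]; ring
      · convert hfin (fun n => c n * ((zc y) ^ n)⁻¹) using 1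
        funext n
        rw [hu2, hpown]
        simp only [hzc, hcirc]
        split_ifs
        · rw [mul_pow, mul_inv]; ring
        · ring
    have hVs : ∀ y, HasSum (fun n => v n * mode n y) (k (zc y)) := by
      intro y
      simp only [hk]
      rw [add_comm]
      refine HasSum.of_nat_of_neg_add_one ?_ ?_
      · convert hasSum_tc_deriv hH (hzb y) using 1
        funext n
        simp only [hv, hu1, hpowp, hzc, hcirc, Int.cast_natCast]; ring
      · convert hfin (fun n => (-(n : ℂ)) * (c n * ((zc y) ^ n)⁻¹)) using 1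
        funext n
        simp only [hv]
        rw [hu2, hpown]
        simp only [hzc, hcirc]
        split_ifs
        · rw [mul_pow, mul_inv]; push_cast; ring
        · ring
    have hUc : Continuous fun y => h (zc y) := by
      have hz : Continuous zc := by rw [hzc]; fun_prop
      refine (continuous_finsetSum _ fun n _ => continuous_const.mul
        ((hz.pow n).inv₀ fun y => pow_ne_zero _ (exp_ne_zero _))).add ?_
      exact hH.continuousOn.comp_continuous hz hzb
    have hpair := hasSum_pairing hus hvs hUc hUs hVs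
    have hint : ∀ y : ℝ, a (Φ (L₁ + y * I)) * Φ' (L₁ + y * I) =
        conj (h (zc y)) * k (zc y) := by
      intro y
      set ζ := (L₁ : ℂ) + y * I with hζ
      have hζU : ζ ∈ U := by simp [hU, hζ, hL1]
      have hzn : ‖exp ζ‖ = r := by rw [hnormexp, Real.exp_log hr0]
      have hΦn : ‖Φ ζ‖ ≤ C := hC (exp ζ) (mem_sphere_zero_iff_norm.2 hzn)
      have e1 : ∀ ξ ∈ U, p (Φ ξ) = h (exp ξ) := fun ξ hξ => by
        simp only [hp, hΦdef, hh]; exact heq _ (hexp ξ hξ) (exp_ne_zero ξ)
      have d1 : HasDerivAt (fun ξ => h (exp ξ)) (p' (Φ ζ) * Φ' ζ) ζ :=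
        ((P.hasDerivAt (Φ ζ)).comp ζ (hΦ ζ hζU)).congr_of_eventuallyEq
          (Filter.eventually_of_mem (hUo.mem_nhds hζU) fun ξ hξ => (e1 ξ hξ).symm)
      have d2 : HasDerivAt (fun ξ => h (exp ξ)) (k (exp ζ)) ζ := by
        simp only [hh, hk]
        refine HasDerivAt.add (HasDerivAt.fun_sum fun n _ => ?_) ?_
        · have := (((hasDerivAt_exp ζ).pow n).inv (pow_ne_zero n (exp_ne_zero ζ))).const_mul (c n)
          refine this.congr_deriv ?_
          have hz := exp_ne_zero ζ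
          rcases n with _ | n
          · simp
          · simp only [Nat.succ_sub_one, Nat.cast_add, Nat.cast_one, Pi.pow_apply]
            field_simp
            ring
        · rw [mul_comm]
          exact ((hH.differentiableAt (isOpen_ball.mem_nhds (hexp ζ hζU))).hasDerivAt).comp ζ
            (hasDerivAt_exp ζ)
      rw [show zc y = exp ζ from rfl, ← d1.unique d2, ← e1 ζ hζU]
      simp only [ha]
      rw [χ.one_of_mem_closedBall (mem_closedBall_zero_iff.2 (hΦn.trans hRC.le)), ofReal_one,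
        mul_one, mul_assoc]
    rw [intervalIntegral.integral_congr (g := fun y : ℝ => conj (h (zc y)) * k (zc y))
      (fun y _ => hint y)] at hB
    have hre := Complex.hasSum_re hpair
    have hterm : ∀ n : ℤ, (2 * (Real.pi : ℂ) * (conj (u n) * v n)).re =
        2 * Real.pi * ((n : ℝ) * normSq (u n)) := fun n => by
      have e : 2 * (Real.pi : ℂ) * (conj (u n) * v n) =
          ((2 * Real.pi * ((n : ℝ) * normSq (u n)) : ℝ) : ℂ) := by
        push_cast; rw [normSq_eq_conj_mul_self]; simp only [hv]; ring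
      rw [e, ofReal_re]
    simp only [hterm] at hre
    -- compare finite parts
    classical
    set S : Finset ℤ := (range M).image (fun n : ℕ => (n : ℤ)) ∪
      (range N).image (fun n : ℕ => -((n : ℤ) + 1)) with hS
    have hle : ∑ n ∈ S, 2 * Real.pi * ((n : ℝ) * normSq (u n)) ≤ 0 := by
      refine le_trans (sum_le_hasSum S (fun n hn => ?_) hre) hB
      rcases Int.eq_nat_or_neg n with ⟨m, rfl | rfl⟩
      · exact mul_nonneg (by positivity) (mul_nonneg (by simp) (normSq_nonneg _))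
      · rcases m with _ | m
        · simp
        · have hm : ¬ m + 1 ≤ N := fun q => hn (Finset.mem_union_right _
            (Finset.mem_image.2 ⟨m, Finset.mem_range.2 q, by push_cast; ring⟩))
          rw [show (-((m + 1 : ℕ) : ℤ)) = -((m : ℤ) + 1) by push_cast; ring, hu2, if_neg hm]
          simp
    rw [hS, sum_union, sum_image (by intro x _ y _ h; simpa using h),
      sum_image (by intro x _ y _ h; simpa using h), ← mul_sum, ← mul_sum, ← mul_add] at hle
    swap
    · refine Finset.disjoint_left.2 fun x h1 h2 => ?_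
      obtain ⟨i, -, rfl⟩ := Finset.mem_image.1 h1
      obtain ⟨j, -, hj⟩ := Finset.mem_image.1 h2
      omega
    have hle' := nonpos_of_mul_nonpos_right hle (by positivity : 0 < 2 * Real.pi)
    have eA : ∑ n ∈ range M, (n : ℝ) * normSq (tc H n) * r ^ (2 * n) =
        ∑ n ∈ range M, ((n : ℤ) : ℝ) * normSq (u (n : ℤ)) := sum_congr rfl fun n _ => by
      rw [hu1, map_mul, map_pow, normSq_ofReal, Int.cast_natCast, pow_mul]; ring
    have eB : ∑ n ∈ Finset.Icc 1 N, (n : ℝ) * normSq (c n) / r ^ (2 * n) =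
        -∑ n ∈ range N, ((-((n : ℤ) + 1) : ℤ) : ℝ) * normSq (u (-((n : ℤ) + 1))) := by
      rw [← Finset.Ico_add_one_right_eq_Icc, ← sum_Ico_add' _ 0 N 1, ← range_eq_Ico,
        ← sum_neg_distrib]
      refine sum_congr rfl fun n hn => ?_
      rw [hu2, if_pos (Nat.succ_le_of_lt (Finset.mem_range.1 hn)), map_mul, map_inv₀, map_pow,
        normSq_ofReal, pow_mul]
      push_cast; ring
    rw [eA, eB]
    linarith
  have hL : Tendsto (fun r : ℝ => ∑ n ∈ range M, (n : ℝ) * normSq (tc H n) * r ^ (2 * n))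
      (𝓝[<] 1) (𝓝 (∑ n ∈ range M, (n : ℝ) * normSq (tc H n))) := by
    refine tendsto_nhdsWithin_of_tendsto_nhds (tendsto_finsetSum _ fun n _ => ?_)
    have h : ContinuousAt (fun r : ℝ => (n : ℝ) * normSq (tc H n) * r ^ (2 * n)) 1 := by fun_prop
    simpa using h.tendsto
  have hR : Tendsto (fun r : ℝ => ∑ n ∈ Finset.Icc 1 N, (n : ℝ) * normSq (c n) / r ^ (2 * n))
      (𝓝[<] 1) (𝓝 (∑ n ∈ Finset.Icc 1 N, (n : ℝ) * normSq (c n))) := by
    refine tendsto_nhdsWithin_of_tendsto_nhds (tendsto_finsetSum _ fun n _ => ?_)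
    have h : ContinuousAt (fun r : ℝ => (n : ℝ) * normSq (c n) / r ^ (2 * n)) 1 :=
      continuousAt_const.div (by fun_prop) (by simp)
    simpa using h.tendsto
  refine le_of_tendsto_of_tendsto hL hR ?_
  filter_upwards [Ioo_mem_nhdsLT (show (0 : ℝ) < 1 by norm_num)] with r hr
  exact key r hr.1 hr.2

end

end Vale.Agent.P142.Area
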